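import Crest.Agent.N067.A.Defs

/-!
# Row 67, block K (helper53): the ABSTRACT output of the master inequality and the bookkeeping

`MIStmt` hides `φ_±, rt, H, ζ, b, χ, NSZ, SSY` behind two functions `G` (`= Z² χ ψ² / Z₀²`) and
`J` (`= e ψ³ t Z² / Z₀²`).  Everything after it (area, good volume, iteration, second pass, tube) is
real analysis and only uses this file.
-/

set_option autoImplicit false

open MeasureTheory Laplacian InnerProductSpace Topology Filter Set Metric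
open scoped RealInnerProductSpace ContDiff Gradient ENNReal

namespace Crest.Agent.N067

open Crest.Agent.R077

noncomputable section

variable {n : ℕ}

/-- `d` is `κ`-flat at `x`: both paraboloids of opening `κ` touch (`φ_± ≤ 2 κ`) -/
def Flat (v : EE n → ℝ) (κ : ℝ) (x : EE n) : Prop :=
  ∀ z, |dd v z - dd v x - ⟪∇ (dd v) x, z - x⟫| ≤ κ * ‖z - x‖ ^ 2

/-- the shallow set -/
def Sh (v : EE n → ℝ) : Set (EE n) := {x | |dd v x| ≤ 1}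

/-- `ϱ = √(r0² + ∑_{i ∈ I} (x_i - c_i)²)` -/
def rh (I : Finset (Fin n)) (c : EE n) (r0 : ℝ) (x : EE n) : ℝ :=
  √(r0 ^ 2 + ∑ i ∈ I, (x i - c i) ^ 2)

/-- polynomial majorant of the cut-off and of all exponential tails -/
def Om (c : EE n) (R : ℝ) (x : EE n) : ℝ := ((1 + ‖x - c‖ / R) ^ 20)⁻¹

/-- the shallow set has volume at most `Θ R^e` in every ball of radius `R ≥ 1` -/
def Mass (v : EE n → ℝ) (Θ e : ℝ) : Prop :=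
  ∀ (x : EE n) (R : ℝ), 1 ≤ R → volume (Sh v ∩ ball x R) ≤ ENNReal.ofReal (Θ * R ^ e)

/-- the exponents (`γ = 1.1, s = 1.02, P = 3, θ = 0.59` in h93-X4) -/
structure Expo (γ s P θ b : ℝ) : Prop where
  g0 : 0 < γ
  g2 : γ < 2
  s0 : 0 < s
  P0 : 0 < P
  P5 : P ≤ 5
  t0 : 0 < θ
  t1 : θ < 1
  b0 : 0 < b
  c1 : 2 < s + γ
  c2 : 5 < P + 2 * γ
  c3 : 7 * (1 - θ) - 2 * θ < (2 * γ + 2) * (1 - θ)
  c4 : 7 - θ * (P + 2) < 2 * γ + 2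

/-- the data delivered by the master inequality at the level `f0` -/
structure MIData (v : EE n → ℝ) (γ s P θ b C0 κ1 c C rs f0 : ℝ) (G J : EE n → ℝ) : Prop where
  mG : Measurable G
  mJ : Measurable J
  nG : ∀ x, 0 ≤ G x
  nJ : ∀ x, 0 ≤ J x
  /-- crude bounds; the constant may depend on `f0` -/
  crude : ∃ C1 : ℝ, ∀ x, G x ≤ C1 * psi v x ^ b ∧ G x ≤ C1 * J x ^ θ * (psi v x ^ b) ^ (1 - θ)
  /-- `G` sees the shallow points that are not flat -/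
  low : ∀ κ, C0 / f0 ≤ κ → κ ≤ κ1 → ∀ x ∈ Sh v, ¬ Flat v κ x → c * (f0 * κ) ^ (2 * s) ≤ G x
  /-- the master inequality with the Hardy weight `ϱ^(-γ)` and a cut-off at `‖x - x0‖ ~ R` -/
  mi : ∀ (I : Finset (Fin n)) (x0 : EE n) (r0 R : ℝ), 7 ≤ I.card → rs ≤ r0 → r0 ≤ R → f0 ≤ R →
    ∫⁻ x in ball x0 R, ENNReal.ofReal
        (G x * rh I x0 r0 x ^ (-(2 * γ) - 2) + J x * rh I x0 r0 x ^ (-(2 * γ))) ≤
      ENNReal.ofReal C * ((∫⁻ x, ENNReal.ofReal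
          (R ^ (-2 : ℝ) * (G x * rh I x0 r0 x ^ (-(2 * γ)) * Om x0 R x))) +
        ∫⁻ x, ENNReal.ofReal (min (f0 ^ (-2 : ℝ)) (f0 ^ P * rh I x0 r0 x ^ (-P - 2)) *
          (psi v x ^ b * rh I x0 r0 x ^ (-(2 * γ)) * Om x0 R x)))

/-- **MI** (blocks X1-X5, owner helper93): no growth hypothesis, `n = 7` or `8`. -/
def MIStmt : Prop := ∃ γ s P θ b : ℝ, Expo γ s P θ b ∧
  ∀ (n : ℕ) (v : EE n → ℝ), n = 7 ∨ n = 8 → Sol v → Stable v → ¬ Planar v →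
    ∃ C0 κ1 c C rs fs : ℝ, 0 < C0 ∧ 0 < κ1 ∧ 0 < c ∧ 0 < C ∧ 1 ≤ rs ∧ 1 ≤ fs ∧
      ∀ f0, fs ≤ f0 → ∃ G J : EE n → ℝ, MIData v γ s P θ b C0 κ1 c C rs f0 G J

/-! ### leaves of the block -/

/-- K0: powers of `ψ` have the mass of the shallow set -/
def PsiMassStmt : Prop := ∀ (n : ℕ) (v : EE n → ℝ) (Θ e b : ℝ), Sol v → 0 ≤ Θ → 0 ≤ e → 0 < b →
  Mass v Θ e → ∃ A : ℝ, 0 ≤ A ∧ ∀ (x : EE n) (R : ℝ), 1 ≤ R →
    ∫⁻ y in ball x R, ENNReal.ofReal (psi v y ^ b) ≤ ENNReal.ofReal (A * R ^ e)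

/-- K0': flat points of a stable solution have slope at least `1/2` -/
def FlatNStmt : Prop := ∀ (n : ℕ) (v : EE n → ℝ), Sol v → Stable v →
  ∃ κ0 : ℝ, 0 < κ0 ∧ ∀ x, Flat v κ0 x → 1 / 2 ≤ ‖∇ (dd v) x‖

/-- K1: the area estimate in `G`-form; `e = 6 + β` -/
def AreaStmt : Prop := ∀ (n : ℕ) (v : EE n → ℝ) (γ s P θ b C0 κ1 c C rs A e : ℝ),
  7 ≤ n → Expo γ s P θ b → 0 < C → 1 ≤ rs → 0 ≤ A → 6 ≤ e → e ≤ 7 →
  (∀ (x : EE n) (R : ℝ), 1 ≤ R →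
    ∫⁻ y in ball x R, ENNReal.ofReal (psi v y ^ b) ≤ ENNReal.ofReal (A * R ^ e)) →
  (∀ x, 0 < psi v x) → Measurable (psi v) →
  ∃ A' : ℝ, 0 ≤ A' ∧ ∀ (f0 : ℝ) (G J : EE n → ℝ), 1 ≤ f0 → MIData v γ s P θ b C0 κ1 c C rs f0 G J →
    (∀ (x : EE n) (r : ℝ), rs ≤ r → f0 ≤ r →
      ∫⁻ y in ball x r, ENNReal.ofReal (G y) ≤ ENNReal.ofReal (A' * f0 ^ P * r ^ (e - P)))

/-- K2: the flat shallow points have the volume of one sheet at the scale `1/κ` -/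
def GoodStmt : Prop := ∀ (v : EE 7 → ℝ), Sol v → Stable v → ∃ A κ0 : ℝ, 0 ≤ A ∧ 0 < κ0 ∧
  ∀ (κ : ℝ) (x : EE 7) (R : ℝ), 0 < κ → κ ≤ κ0 → 1 / κ ≤ R →
    volume (Sh v ∩ {y | Flat v κ y} ∩ ball x R) ≤ ENNReal.ofReal (A * κ * R ^ (7 : ℝ))

/-- lower density of the shallow set at zeros -/
def LowStmt : Prop := ∀ (v : EE 8 → ℝ) (Θ : ℝ), Sol v → 0 ≤ Θ → Mass v Θ 7 →
  ∃ c r1 : ℝ, 0 < c ∧ 1 ≤ r1 ∧ ∀ (y : EE 8) (r : ℝ), v y = 0 → r1 ≤ r →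
    ENNReal.ofReal (c * r ^ (7 : ℝ)) ≤ volume (Sh v ∩ ball y r)

/-- the rigidity theorem in `ℝ⁷` for strict solutions -/
def SevenStmt : Prop := ∀ v : EE 7 → ℝ, Sol v → Stable v → Planar v

/-- the tube: a flat shallow point, or a ball without zeros, somewhere along the `e₈`-axis -/
def TubePtStmt : Prop := ∀ (u : EE 8 → ℝ) (Θ : ℝ), Sol u → Stable u → ¬ Planar u →
  (∀ (x : EE 8) (R : ℝ), 1 ≤ R → ∫ z in ball x R, en u z ≤ Θ * R ^ 7) →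
  ∀ ε : ℝ, 0 < ε → ∃ K r1 : ℝ, 1 ≤ K ∧ 1 ≤ r1 ∧ ∀ (x0 : EE 8) (r : ℝ), r1 ≤ r →
    ∃ h ∈ Icc (0 : ℝ) (K * r),
      (∀ y ∈ ball (x0 + h • ev (Fin.last 7)) r, u y ≠ 0) ∨
      ∃ p ∈ ball (x0 + h • ev (Fin.last 7)) (2 * r), p ∈ Sh u ∧ Flat u (ε / r) p ∧
        1 / 2 ≤ ‖∇ (dd u) p‖

end

end Crest.Agent.N067
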