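import Crest.Agent.N067.K.Defs
import Crest.Agent.N067.A.All

/-!
# Row 67, block K: flat points of a stable solution have slope at least `1/2` (helper43)

Compactness: translates of `d - d(x_j)` converge in `C²_loc` to a linear function of slope `≤ 1/2`,
so `Δ d_j = -√2 v_j t_j → 0` forces `v_j → 0`, and `0` is not stable.
-/

set_option autoImplicit false

open MeasureTheory Laplacian InnerProductSpace Topology Filter Set Metric
open scoped RealInnerProductSpace ContDiff Gradient

namespace Crest.Agent.N067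

open Crest.Agent.R077

noncomputable section

variable {n : ℕ}

theorem not_stable_zero : ¬ Stable fun _ : EE n => (0 : ℝ) := by
  intro h
  let b : ContDiffBump (0 : EE n) := ⟨1, 2, one_pos, one_lt_two⟩
  have hb : ContDiff ℝ 1 b := b.contDiff
  set A := ∫ x, ‖∇ b x‖ ^ 2 with hA
  set B := ∫ x, b x ^ 2 with hB
  have iA := St.int_grad_sq hb b.hasCompactSupport
  have iB : Integrable fun x => b x ^ 2 :=
    (hb.continuous.pow 2).integrable_of_hasCompactSupport (St.cs_sq b.hasCompactSupport)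
  have hB0 : 0 < B := (hb.continuous.pow 2).integral_pos_of_hasCompactSupport_nonneg_nonzero
    (x := 0) (St.cs_sq b.hasCompactSupport) (fun _ => sq_nonneg _) (by
      simp [b.one_of_mem_closedBall (mem_closedBall_self b.rIn_pos.le)])
  have key : ∀ ε : ℝ, 0 < ε → B ≤ ε ^ 2 * A := by
    intro ε hε
    have h1 := h (fun x => b (ε • x)) (hb.comp (contDiff_const_smul ε))
      (b.hasCompactSupport.comp_smul hε.ne')
    have e : ∀ x : EE n, ‖∇ (fun x => b (ε • x)) x‖ ^ 2 + (3 * (0 : ℝ) ^ 2 - 1) * b (ε • x) ^ 2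
        = (fun y => ε ^ 2 * ‖∇ b y‖ ^ 2 - b y ^ 2) (ε • x) := by
      intro x
      simp only [← gsq_eq, gsq, pdv_scale (hb.differentiable (by norm_num) _), mul_pow,
        ← Finset.mul_sum]
      ring
    simp only [e] at h1
    rw [Measure.integral_comp_smul volume (fun y => ε ^ 2 * ‖∇ b y‖ ^ 2 - b y ^ 2),
      integral_sub (iA.const_mul _) iB, integral_const_mul, ← hA, ← hB, smul_eq_mul] at h1
    have := nonneg_of_mul_nonneg_right h1 (abs_pos.2 (by positivity))
    linarith
  have lim : Tendsto (fun ε : ℝ => ε ^ 2 * A) (𝓝[>] 0) (𝓝 (0 ^ 2 * A)) :=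
    tendsto_nhdsWithin_of_tendsto_nhds (Continuous.tendsto (by fun_prop) 0)
  have h2 := ge_of_tendsto lim (eventually_nhdsWithin_of_forall key)
  simp at h2
  linarith

theorem dd_shift (v : EE n → ℝ) (x : EE n) : dd (fun y => v (x + y)) = fun y => dd v (x + y) := rfl

theorem Stable.shift' {u : EE n → ℝ} (h : Stable u) (a : EE n) : Stable fun y => u (a + y) := by
  simpa only [add_comm a] using h.shift a

/-- normalized `d`-functions of solutions are precompact in `C^∞_loc` -/
theorem dd_compact (w : ℕ → EE n → ℝ) (hw : ∀ j, Sol (w j)) :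
    ∃ (φ : ℕ → ℕ) (g : EE n → ℝ), StrictMono φ ∧ ContDiff ℝ ∞ g ∧
      CLim atTop (fun j y => dd (w (φ j)) y - dd (w (φ j)) 0) g := by
  refine AA.arzela (fun j y => dd (w j) y - dd (w j) 0)
    (fun j => (hw j).dd_sm.sub contDiff_const) fun k R => ?_
  cases k with
  | zero =>
    refine ⟨R, fun j x hx => ?_⟩
    rw [norm_iteratedFDeriv_zero, Real.norm_eq_abs]
    exact ((hw j).abs_dd_sub_le x 0).trans (by simpa using (mem_ball_iff_norm.1 hx).le)
  | succ k =>
    obtain ⟨C, hC⟩ := dreg n k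
    refine ⟨C, fun j x _ => ?_⟩
    have e := iteratedFDeriv_sub_apply (𝕜 := ℝ) (i := k + 1) (x := x) (f := dd (w j))
      (g := fun _ => dd (w j) 0) ((hw j).dd_cd (k + 1)).contDiffAt contDiffAt_const
    rw [iteratedFDeriv_succ_const] at e
    change ‖iteratedFDeriv ℝ (k + 1) (dd (w j) - fun _ => dd (w j) 0) x‖ ≤ C
    rw [e]
    simpa using hC _ (hw j) x

theorem flatN : FlatNStmt := by
  intro n v hv hs
  by_contra hcon
  push Not at hcon
  choose x hx hN using fun j : ℕ => hcon (1 / ((j : ℝ) + 1)) Nat.one_div_pos_of_nat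
  obtain ⟨φ, g, hφ, hg, hlim⟩ := dd_compact (fun j y => v (x j + y)) fun j => hv.shift (x j)
  have eg : ∀ j y, ∇ (fun y => dd (fun y => v (x j + y)) y - dd (fun y => v (x j + y)) 0) y
      = ∇ (dd fun y => v (x j + y)) y := fun j y => by
    ext i; simp only [grad_apply, pdv_sub_const]
  have eg0 : ∀ j, ∇ (dd fun y => v (x j + y)) 0 = ∇ (dd v) (x j) := fun j => by
    rw [dd_shift, gradient, gradient, fderiv_comp_add_left, add_zero]
  have lg : ∀ y, Tendsto (fun j => ∇ (dd fun y => v (x (φ j) + y)) y) atTop (𝓝 (∇ g y)) :=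
    fun y => by simpa only [eg] using AA.tlu_tendsto hlim.grad y
  have l0 : Tendsto (fun j => ∇ (dd v) (x (φ j))) atTop (𝓝 (∇ g 0)) := by
    simpa only [eg0] using lg 0
  have ha : ‖∇ g 0‖ ≤ 1 / 2 := le_of_tendsto' l0.norm fun j => (hN _).le
  have hlin : g = fun y => ⟪∇ g 0, y⟫ := by
    funext y
    have l1 := ((hlim.tendsto y).sub (l0.inner (𝕜 := ℝ) (tendsto_const_nhds (x := y)))).abs
    have l2 : Tendsto (fun j => 1 / ((φ j : ℝ) + 1) * ‖y‖ ^ 2) atTop (𝓝 (0 * ‖y‖ ^ 2)) :=
      (tendsto_one_div_add_atTop_nhds_zero_nat.comp hφ.tendsto_atTop).mul_const _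
    have := le_of_tendsto_of_tendsto' l1 l2 fun j => by
      simpa [dd_shift] using hx (φ j) (x (φ j) + y)
    rw [zero_mul] at this
    exact sub_eq_zero.1 (abs_nonpos_iff.1 this)
  have hv0 : ∀ y, Tendsto (fun j => v (x (φ j) + y)) atTop (𝓝 0) := by
    intro y
    have l1 := AA.tlu_tendsto hlim.lap y
    rw [hlin, lap_inner] at l1
    simp only [lap_sub_const ((hv.shift _).dd_cd 2).contDiffAt, (hv.shift _).lap_dd] at l1
    have e : ∇ g y = ∇ g 0 := by
      ext i
      rw [grad_apply, hlin, pdv_inner, ← hlin]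
    have l2 : Tendsto (fun j => -Real.sqrt 2 * tt (fun y => v (x (φ j) + y)) y) atTop
        (𝓝 (-Real.sqrt 2 * (1 - ‖∇ g 0‖ ^ 2))) := by
      rw [← e]
      exact (((lg y).norm.pow 2).const_sub 1).const_mul _
    have h0 : -Real.sqrt 2 * (1 - ‖∇ g 0‖ ^ 2) ≠ 0 :=
      mul_ne_zero (neg_ne_zero.2 sqrt2_pos.ne') (by nlinarith [norm_nonneg (∇ g 0)])
    have l3 := l1.div l2 h0
    rw [zero_div] at l3
    refine l3.congr' ?_
    filter_upwards [l2.eventually_ne h0] with j hj
    rw [Pi.div_apply, div_eq_iff hj]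
    ring
  exact not_stable_zero (stabLim n _ _ (fun j => (hv.shift (x (φ j))).isSol)
    (fun j => hs.shift' _) hv0)

end

end Crest.Agent.N067
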