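import Crest.Agent.N067.K.Defs

/-!
# Row 67, block K (helper53): dyadic layer lemmas
-/

set_option autoImplicit false

open MeasureTheory Topology Filter Set Metric
open scoped ENNReal

namespace Crest.Agent.N067

open Crest.Agent.R077

noncomputable section

section general

variable {X : Type*} [MeasurableSpace X] {μ : Measure X}

/-- sum over layers with geometric bounds -/
theorem lay_sum {f : X → ℝ≥0∞} {T : Set X} {S : ℕ → Set X} (hT : T ⊆ ⋃ j, S j) {B q : ℝ}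
    (hB : 0 ≤ B) (hq0 : 0 ≤ q) (hq1 : q < 1)
    (h : ∀ j, ∫⁻ x in S j, f x ∂μ ≤ ENNReal.ofReal (B * q ^ j)) :
    ∫⁻ x in T, f x ∂μ ≤ ENNReal.ofReal (B * (1 - q)⁻¹) := by
  have hs : Summable fun j : ℕ => B * q ^ j := (summable_geometric_of_lt_one hq0 hq1).mul_left B
  calc ∫⁻ x in T, f x ∂μ ≤ ∫⁻ x in ⋃ j, S j, f x ∂μ := lintegral_mono_set hT
    _ ≤ ∑' j, ∫⁻ x in S j, f x ∂μ := lintegral_iUnion_le _ _
    _ ≤ ∑' j, ENNReal.ofReal (B * q ^ j) := ENNReal.tsum_le_tsum h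
    _ = ENNReal.ofReal (∑' j, B * q ^ j) :=
        (ENNReal.ofReal_tsum_of_nonneg (fun j => by positivity) hs).symm
    _ = _ := by rw [tsum_mul_left, tsum_geometric_of_lt_one hq0 hq1]

/-- a bounded factor on a set -/
theorem lay_piece {F : X → ℝ≥0∞} {g : X → ℝ} {S T : Set X} (hS : MeasurableSet S) (hST : S ⊆ T)
    {m M : ℝ} (hm : 0 ≤ m) (hg : ∀ x ∈ S, g x ≤ m) (hF : ∫⁻ x in T, F x ∂μ ≤ ENNReal.ofReal M) :
    ∫⁻ x in S, F x * ENNReal.ofReal (g x) ∂μ ≤ ENNReal.ofReal (m * M) := by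
  calc ∫⁻ x in S, F x * ENNReal.ofReal (g x) ∂μ ≤ ∫⁻ x in S, F x * ENNReal.ofReal m ∂μ :=
        setLIntegral_mono' hS fun x hx => by gcongr; exact hg x hx
    _ = (∫⁻ x in S, F x ∂μ) * ENNReal.ofReal m := lintegral_mul_const' _ _ ENNReal.ofReal_ne_top
    _ ≤ ENNReal.ofReal M * ENNReal.ofReal m := by
        gcongr; exact (lintegral_mono_set hST).trans hF
    _ = _ := by rw [mul_comm, ← ENNReal.ofReal_mul hm]

/-- the constant of `lay_out` -/
def cOut (e α : ℝ) : ℝ := 2 ^ e * (1 - 2 ^ (e - α))⁻¹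

/-- the constant of `lay_in` -/
def cIn (e α : ℝ) : ℝ := 2 ^ α * (1 - 2 ^ (α - e))⁻¹

theorem two_rpow_lt_one {x : ℝ} (hx : x < 0) : (2 : ℝ) ^ x < 1 :=
  Real.rpow_lt_one_of_one_lt_of_neg one_lt_two hx

theorem cOut_pos {e α : ℝ} (h : e < α) : 0 < cOut e α := by
  have := two_rpow_lt_one (sub_neg.2 h)
  unfold cOut
  have h1 : 0 < 1 - (2 : ℝ) ^ (e - α) := by linarith
  positivity

theorem cIn_pos {e α : ℝ} (h : α < e) : 0 < cIn e α := by
  have := two_rpow_lt_one (sub_neg.2 h)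
  unfold cIn
  have h1 : 0 < 1 - (2 : ℝ) ^ (α - e) := by linarith
  positivity

/-- outer layers: growth `s^e` against the weight `ρ^(-α)`, `e < α` -/
theorem lay_out {F : X → ℝ≥0∞} {ρ : X → ℝ} (hρ : Measurable ρ) {a A e α : ℝ} (ha : 0 < a)
    (hA : 0 ≤ A) (hα : 0 ≤ α) (he : e < α)
    (h : ∀ s, a ≤ s → ∫⁻ x in {x | ρ x < s}, F x ∂μ ≤ ENNReal.ofReal (A * s ^ e)) :
    ∫⁻ x in {x | a ≤ ρ x}, F x * ENNReal.ofReal (ρ x ^ (-α)) ∂μ ≤
      ENNReal.ofReal (cOut e α * A * a ^ (e - α)) := by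
  have hq := two_rpow_lt_one (sub_neg.2 he)
  have key := lay_sum (μ := μ) (f := fun x => F x * ENNReal.ofReal (ρ x ^ (-α)))
    (T := {x | a ≤ ρ x}) (S := fun j => {x | 2 ^ j * a ≤ ρ x ∧ ρ x < 2 ^ (j + 1) * a})
    (B := 2 ^ e * A * a ^ (e - α)) (q := 2 ^ (e - α)) ?_ (by positivity) (by positivity) hq ?_
  · refine key.trans (le_of_eq ?_)
    congr 1; unfold cOut; ring
  · intro x hx
    obtain ⟨j, h1, h2⟩ := exists_nat_pow_near (x := ρ x / a) (y := 2)
      ((one_le_div ha).2 hx) one_lt_two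
    exact mem_iUnion.2 ⟨j, (le_div_iff₀ ha).1 h1, (div_lt_iff₀ ha).1 h2⟩
  · intro j
    have h2 : (0 : ℝ) < 2 ^ j * a := by positivity
    have h3 : a ≤ 2 ^ (j + 1) * a := le_mul_of_one_le_left ha.le (one_le_pow₀ one_le_two)
    refine (lay_piece (T := {x | ρ x < 2 ^ (j + 1) * a}) (m := (2 ^ j * a) ^ (-α))
      ((measurableSet_le measurable_const hρ).inter (measurableSet_lt hρ measurable_const))
      (fun x hx => hx.2) (by positivity)
      (fun x hx => Real.rpow_le_rpow_of_nonpos h2 hx.1 (by linarith)) (h _ h3)).trans (le_of_eq ?_)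
    congr 1
    have e1 : ((2 : ℝ) ^ (e - α)) ^ j = (2 ^ j : ℝ) ^ (e - α) := by
      rw [← Real.rpow_natCast, ← Real.rpow_mul zero_le_two, mul_comm, Real.rpow_mul zero_le_two,
        Real.rpow_natCast]
    have e2 : ((2 : ℝ) ^ (j + 1) * a) ^ e = 2 ^ e * (2 ^ j * a) ^ e := by
      rw [← Real.mul_rpow zero_le_two h2.le]; congr 1; ring
    have e3 : ((2 : ℝ) ^ j * a) ^ (-α) * (2 ^ j * a) ^ e = a ^ (e - α) * (2 ^ j : ℝ) ^ (e - α) := by
      rw [← Real.rpow_add h2, ← Real.mul_rpow ha.le (by positivity)]; congr 1 <;> ring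
    rw [e1, e2]
    calc _ = 2 ^ e * A * (((2 : ℝ) ^ j * a) ^ (-α) * (2 ^ j * a) ^ e) := by ring
      _ = _ := by rw [e3]; ring

/-- inner layers: growth `s^e` against the weight `ρ^(-α)`, `α < e` -/
theorem lay_in {F : X → ℝ≥0∞} {ρ : X → ℝ} (hρ : Measurable ρ) {a S A e α : ℝ} (ha : 0 < a)
    (hS : 0 < S) (hA : 0 ≤ A) (hα : 0 ≤ α) (he : α < e)
    (h : ∀ s, a ≤ s → s ≤ S → ∫⁻ x in {x | ρ x < s}, F x ∂μ ≤ ENNReal.ofReal (A * s ^ e)) :
    ∫⁻ x in {x | a ≤ ρ x ∧ ρ x < S}, F x * ENNReal.ofReal (ρ x ^ (-α)) ∂μ ≤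
      ENNReal.ofReal (cIn e α * A * S ^ (e - α)) := by
  have hq := two_rpow_lt_one (sub_neg.2 he)
  have key := lay_sum (μ := μ) (f := fun x => F x * ENNReal.ofReal (ρ x ^ (-α)))
    (T := {x | a ≤ ρ x ∧ ρ x < S})
    (S := fun j => {x | a ≤ ρ x ∧ S / 2 ^ (j + 1) ≤ ρ x ∧ ρ x < S / 2 ^ j})
    (B := 2 ^ α * A * S ^ (e - α)) (q := 2 ^ (α - e)) ?_ (by positivity) (by positivity) hq ?_
  · refine key.trans (le_of_eq ?_)
    congr 1; unfold cIn; ring
  · intro x hx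
    have hx0 : 0 < ρ x := ha.trans_le hx.1
    have h0 : 1 < S / ρ x := (one_lt_div hx0).2 hx.2
    obtain ⟨j, h1, h2⟩ := exists_mem_Ioc_zpow (x := S / ρ x) (y := 2) (by positivity) one_lt_two
    have hj : 0 ≤ j := by
      by_contra hj
      have : (2 : ℝ) ^ (j + 1) ≤ 1 := zpow_le_one_of_nonpos₀ one_le_two (by omega)
      linarith
    lift j to ℕ using hj
    refine mem_iUnion.2 ⟨j, hx.1, ?_, ?_⟩
    · rw [div_le_iff₀ (by positivity)]
      have h2' : S / ρ x ≤ 2 ^ (j + 1) := by exact_mod_cast h2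
      rw [div_le_iff₀ hx0] at h2'; linarith
    · rw [lt_div_iff₀ (by positivity)]
      have h1' : (2 : ℝ) ^ j < S / ρ x := by exact_mod_cast h1
      rw [lt_div_iff₀ hx0] at h1'; linarith
  · intro j
    have h2 : (0 : ℝ) < S / 2 ^ j := by positivity
    by_cases hj : a ≤ S / 2 ^ j
    · have h3 : S / 2 ^ j ≤ S := div_le_self hS.le (one_le_pow₀ one_le_two)
      refine (lay_piece (T := {x | ρ x < S / 2 ^ j}) (m := (S / 2 ^ (j + 1)) ^ (-α))
        ((measurableSet_le measurable_const hρ).inter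
          ((measurableSet_le measurable_const hρ).inter (measurableSet_lt hρ measurable_const)))
        (fun x hx => hx.2.2) (by positivity)
        (fun x hx => Real.rpow_le_rpow_of_nonpos (by positivity) hx.2.1 (by linarith))
        (h _ hj h3)).trans (le_of_eq ?_)
      congr 1
      have e1 : ((2 : ℝ) ^ (α - e)) ^ j = ((2 ^ j : ℝ)⁻¹) ^ (e - α) := by
        rw [Real.inv_rpow (by positivity), ← Real.rpow_neg (by positivity), ← Real.rpow_natCast,
          ← Real.rpow_mul zero_le_two, ← Real.rpow_natCast, ← Real.rpow_mul zero_le_two]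
        congr 1; ring
      have e2 : (S / 2 ^ (j + 1)) ^ (-α) = 2 ^ α * (S / 2 ^ j) ^ (-α) := by
        have : S / 2 ^ (j + 1) = 2⁻¹ * (S / 2 ^ j) := by rw [pow_succ]; field_simp
        rw [this, Real.mul_rpow (by norm_num) h2.le, Real.inv_rpow zero_le_two,
          ← Real.rpow_neg zero_le_two, neg_neg]
      have e3 : (S / 2 ^ j) ^ (-α) * (S / 2 ^ j) ^ e = S ^ (e - α) * ((2 ^ j : ℝ)⁻¹) ^ (e - α) := by
        rw [← Real.rpow_add h2, ← Real.mul_rpow hS.le (by positivity), div_eq_mul_inv]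
        congr 1; ring
      rw [e1, e2]
      calc _ = 2 ^ α * A * ((S / 2 ^ j) ^ (-α) * (S / 2 ^ j) ^ e) := by ring
        _ = _ := by rw [e3]; ring
    · have : {x | a ≤ ρ x ∧ S / 2 ^ (j + 1) ≤ ρ x ∧ ρ x < S / 2 ^ j} = ∅ :=
        eq_empty_of_forall_notMem fun x hx => hj (hx.1.trans hx.2.2.le)
      rw [this]; simp

/-- splitting a set into two -/
theorem lint_split {f : X → ℝ≥0∞} {T S1 S2 : Set X} (hT : T ⊆ S1 ∪ S2) {a b : ℝ} (ha : 0 ≤ a)
    (hb : 0 ≤ b) (h1 : ∫⁻ x in S1, f x ∂μ ≤ ENNReal.ofReal a)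
    (h2 : ∫⁻ x in S2, f x ∂μ ≤ ENNReal.ofReal b) :
    ∫⁻ x in T, f x ∂μ ≤ ENNReal.ofReal (a + b) := by
  rw [ENNReal.ofReal_add ha hb]
  exact (lintegral_mono_set hT).trans ((lintegral_union_le _ _ _).trans (add_le_add h1 h2))

/-- inner layers up to `S`, total mass beyond -/
theorem lay_all {F : X → ℝ≥0∞} {ρ : X → ℝ} (hρ : Measurable ρ) {a S A e α : ℝ} (ha : 0 < a)
    (hS : 0 < S) (hA : 0 ≤ A) (hα : 0 ≤ α) (he : α < e)
    (h : ∀ s, a ≤ s → s ≤ S → ∫⁻ x in {x | ρ x < s}, F x ∂μ ≤ ENNReal.ofReal (A * s ^ e))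
    (hu : ∫⁻ x, F x ∂μ ≤ ENNReal.ofReal (A * S ^ e)) :
    ∫⁻ x in {x | a ≤ ρ x}, F x * ENNReal.ofReal (ρ x ^ (-α)) ∂μ ≤
      ENNReal.ofReal ((cIn e α + 1) * A * S ^ (e - α)) := by
  have hc := cIn_pos he
  have h2 := lay_piece (μ := μ) (F := F) (g := fun x => ρ x ^ (-α)) (S := {x | S ≤ ρ x}) (T := univ)
    (m := S ^ (-α)) (M := A * S ^ e) (measurableSet_le measurable_const hρ) (subset_univ _)
    (by positivity) (fun x hx => Real.rpow_le_rpow_of_nonpos hS hx (by linarith)) (by simpa using hu)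
  refine (lint_split (fun x hx => ?_) (by positivity) (by positivity)
    (lay_in hρ ha hS hA hα he h) h2).trans (le_of_eq ?_)
  · rcases lt_or_ge (ρ x) S with h1 | h1
    · exact Or.inl ⟨hx, h1⟩
    · exact Or.inr h1
  · congr 1
    rw [sub_eq_add_neg e α, Real.rpow_add hS]; ring

end general

variable {n : ℕ}

theorem Om_pos (c : EE n) {R : ℝ} (hR : 0 < R) (x : EE n) : 0 < Om c R x := by
  unfold Om; positivity

theorem Om_le_one (c : EE n) {R : ℝ} (hR : 0 < R) (x : EE n) : Om c R x ≤ 1 := by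
  unfold Om
  exact inv_le_one_of_one_le₀ (one_le_pow₀ (le_add_of_nonneg_right (by positivity)))

theorem Om_le (c : EE n) {R : ℝ} (hR : 0 < R) {x : EE n} (hx : 0 < ‖x - c‖) :
    Om c R x ≤ R ^ (20 : ℝ) * ‖x - c‖ ^ (-(20 : ℝ)) := by
  unfold Om
  have h1 : (‖x - c‖ / R) ^ 20 ≤ (1 + ‖x - c‖ / R) ^ 20 := by gcongr; linarith
  refine (inv_anti₀ (by positivity) h1).trans (le_of_eq ?_)
  rw [Real.rpow_neg hx.le, show (20 : ℝ) = ((20 : ℕ) : ℝ) by norm_num, Real.rpow_natCast,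
    Real.rpow_natCast, div_pow]
  field_simp

theorem measurable_Om (c : EE n) (R : ℝ) : Measurable (Om c R) := by
  unfold Om; fun_prop

theorem measurable_rh (I : Finset (Fin n)) (c : EE n) (r0 : ℝ) : Measurable (rh I c r0) := by
  have : Continuous (rh I c r0) := by unfold rh; fun_prop
  exact this.measurable

theorem le_rh (I : Finset (Fin n)) (c : EE n) {r0 : ℝ} (x : EE n) : r0 ≤ rh I c r0 x :=
  Real.le_sqrt_of_sq_le (le_add_of_nonneg_right (Finset.sum_nonneg fun _ _ => sq_nonneg _))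

theorem sum_sq_le (I : Finset (Fin n)) (c x : EE n) : ∑ i ∈ I, (x i - c i) ^ 2 ≤ ‖x - c‖ ^ 2 := by
  rw [EuclideanSpace.real_norm_sq_eq]
  exact Finset.sum_le_sum_of_subset_of_nonneg (Finset.subset_univ I) fun _ _ _ => sq_nonneg _

theorem rh_le (I : Finset (Fin n)) (c : EE n) {r0 : ℝ} (h0 : 0 ≤ r0) (x : EE n) :
    rh I c r0 x ≤ r0 + ‖x - c‖ := by
  refine Real.sqrt_le_iff.2 ⟨by positivity, ?_⟩
  nlinarith [sum_sq_le I c x, norm_nonneg (x - c)]

theorem norm_le_rh (c : EE n) (r0 : ℝ) (x : EE n) : ‖x - c‖ ≤ rh Finset.univ c r0 x := by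
  refine Real.le_sqrt_of_sq_le ?_
  rw [EuclideanSpace.real_norm_sq_eq]
  simp only [PiLp.sub_apply]
  nlinarith [sq_nonneg r0]

/-- the constant of `lay_Om` -/
def cOm (e : ℝ) : ℝ := 1 + cOut e 20

theorem cOm_pos {e : ℝ} (he : e < 20) : 0 < cOm e := by
  have := cOut_pos he; unfold cOm; positivity

/-- growth `s^e` from the radius `R` on against the majorant `Om` -/
theorem lay_Om {μ : Measure (EE n)} {F : EE n → ℝ≥0∞} (c : EE n) {R A e : ℝ} (hR : 0 < R)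
    (hA : 0 ≤ A) (he : e < 20)
    (h : ∀ s, R ≤ s → ∫⁻ x in ball c s, F x ∂μ ≤ ENNReal.ofReal (A * s ^ e)) :
    ∫⁻ x, F x * ENNReal.ofReal (Om c R x) ∂μ ≤ ENNReal.ofReal (cOm e * A * R ^ e) := by
  have hc := cOut_pos he
  have hm : Measurable fun x : EE n => ‖x - c‖ := by fun_prop
  have h1 := lay_piece (μ := μ) (F := F) (g := Om c R) (S := ball c R) (T := ball c R) (m := 1)
    measurableSet_ball subset_rfl zero_le_one (fun x _ => Om_le_one c hR x) (h R le_rfl)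
  have h2 := lay_out (μ := μ) (F := F) hm (α := 20) hR hA (by norm_num) he (fun s hs => by
    have : {x : EE n | ‖x - c‖ < s} = ball c s := by ext x; simp [dist_eq_norm]
    rw [this]; exact h s hs)
  have h3 : ∫⁻ x in {x | R ≤ ‖x - c‖}, F x * ENNReal.ofReal (Om c R x) ∂μ ≤
      ENNReal.ofReal (R ^ (20 : ℝ) * (cOut e 20 * A * R ^ (e - 20))) := by
    calc _ ≤ ∫⁻ x in {x | R ≤ ‖x - c‖}, ENNReal.ofReal (R ^ (20 : ℝ)) *
          (F x * ENNReal.ofReal (‖x - c‖ ^ (-(20 : ℝ)))) ∂μ := by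
          refine setLIntegral_mono' (measurableSet_le measurable_const hm) fun x hx => ?_
          rw [mul_left_comm, ← ENNReal.ofReal_mul (by positivity)]
          gcongr
          exact Om_le c hR (hR.trans_le hx)
      _ = _ := lintegral_const_mul' _ _ ENNReal.ofReal_ne_top
      _ ≤ _ := by rw [ENNReal.ofReal_mul (by positivity)]; gcongr
  have h4 := lint_split (T := univ) (fun x _ => by
    rcases lt_or_ge ‖x - c‖ R with h5 | h5
    · exact Or.inl (by simpa [dist_eq_norm] using h5)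
    · exact Or.inr h5) (by positivity) (by positivity) h1 h3
  rw [Measure.restrict_univ] at h4
  refine h4.trans (le_of_eq ?_)
  congr 1
  unfold cOm
  rw [Real.rpow_sub hR]; field_simp

end

end Crest.Agent.N067
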