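import Crest.Agent.N067.K.Tub1

/-!
# Row 67, block K (helper39): the area estimate `AreaStmt`
-/

set_option autoImplicit false

open MeasureTheory Topology Filter Set Metric
open scoped ENNReal

namespace Crest.Agent.N067

open Crest.Agent.R077

noncomputable section

variable {n : ℕ}

theorem rh_lt_sub (c : EE n) (r0 s : ℝ) : {x | rh Finset.univ c r0 x < s} ⊆ ball c s :=
  fun x hx => by
    rw [mem_ball, dist_eq_norm]; exact (norm_le_rh c r0 x).trans_lt hx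

/-- growth of exponent `e` around `c` from the radius `a` on -/
def Gro (G : EE n → ℝ) (c : EE n) (a e : ℝ) : Prop :=
  ∃ A : ℝ, 0 ≤ A ∧ ∀ s, a ≤ s →
    ∫⁻ x in ball c s, ENNReal.ofReal (G x) ≤ ENNReal.ofReal (A * s ^ e)

theorem Gro.mono {G : EE n → ℝ} {c : EE n} {a e e' : ℝ} (h : Gro G c a e) (ha : 1 ≤ a)
    (he : e ≤ e') : Gro G c a e' := by
  obtain ⟨A, hA, h⟩ := h
  refine ⟨A, hA, fun s hs => (h s hs).trans (ENNReal.ofReal_le_ofReal ?_)⟩
  exact mul_le_mul_of_nonneg_left (Real.rpow_le_rpow_of_exponent_le (ha.trans hs) he) hA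

theorem Gro.down {G : EE n → ℝ} {c : EE n} {a e r : ℝ} (h : Gro G c a e) (ha : 1 ≤ a)
    (he : 0 ≤ e) (hr : 1 ≤ r) : Gro G c r e := by
  obtain ⟨A, hA, h⟩ := h
  have h1 : 1 ≤ a ^ e := Real.one_le_rpow ha he
  refine ⟨A * a ^ e, by positivity, fun s hs => ?_⟩
  have h2 : 1 ≤ s ^ e := Real.one_le_rpow (hr.trans hs) he
  rcases le_total a s with h3 | h3
  · refine (h s h3).trans (ENNReal.ofReal_le_ofReal ?_)
    gcongr
    exact le_mul_of_one_le_right hA h1
  · refine (lintegral_mono_set (ball_subset_ball h3)).trans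
      ((h a le_rfl).trans (ENNReal.ofReal_le_ofReal ?_))
    exact le_mul_of_one_le_right (by positivity) h2

/-- the outer term of the master inequality is small for a large cut-off radius -/
theorem outer_small {G : EE n → ℝ} (c : EE n) (hG : ∀ x, 0 ≤ G x) {γ r0 a e ε : ℝ} (hγ : 0 < γ)
    (hγ2 : γ < 2) (hr : 1 ≤ r0) (ha : 1 ≤ a) (he : e < 2 * γ + 2) (h : Gro G c a e) (hε : 0 < ε)
    (b : ℝ) : ∃ R, b ≤ R ∧ ∫⁻ x, ENNReal.ofReal
      (R ^ (-2 : ℝ) * (G x * rh Finset.univ c r0 x ^ (-(2 * γ)) * Om c R x)) ≤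
        ENNReal.ofReal ε := by
  set e3 := max e (2 * γ + 1) with he3
  have h1 : 2 * γ + 1 ≤ e3 := le_max_right _ _
  have h2 : e3 < 2 * γ + 2 := max_lt he (by linarith)
  obtain ⟨A, hA, h⟩ := (h.mono ha (le_max_left e (2 * γ + 1))).down ha (by linarith) hr
  have hO := cOm_pos (e := e3) (by linarith)
  have hO1 : 1 ≤ cOm e3 := by
    have := cOut_pos (e := e3) (α := 20) (by linarith)
    unfold cOm; linarith
  have hI := cIn_pos (e := e3) (α := 2 * γ) (by linarith)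
  obtain ⟨R, hR, hR2⟩ := exists_rpow_le (D := (cIn e3 (2 * γ) + 1) * (cOm e3 * A))
    (η := e3 - 2 * γ - 2) (by linarith) hε (max b r0)
  have hr0 : 0 < r0 := one_pos.trans_le hr
  have hR1 : r0 ≤ R := (le_max_right _ _).trans hR
  have hR0 : 0 < R := hr0.trans_le hR1
  refine ⟨R, (le_max_left _ _).trans hR, ?_⟩
  have hm := measurable_rh Finset.univ c r0
  set F : EE n → ℝ≥0∞ := fun x => ENNReal.ofReal (G x) * ENNReal.ofReal (Om c R x) with hF
  have a1 := lay_all (μ := volume) (F := F) hm (a := r0) (S := R) (α := 2 * γ)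
    (A := cOm e3 * A) (e := e3) hr0 hR0 (by positivity) (by positivity) (by linarith)
    (fun s hs _ => by
      have hs0 : 0 < s := hr0.trans_le hs
      calc _ ≤ ∫⁻ x in ball c s, F x := lintegral_mono_set (rh_lt_sub c r0 s)
        _ ≤ ∫⁻ x in ball c s, ENNReal.ofReal (G x) := lintegral_mono fun x =>
            mul_le_of_le_one_right' (ENNReal.ofReal_le_one.2 (Om_le_one c hR0 x))
        _ ≤ _ := (h s hs).trans (ENNReal.ofReal_le_ofReal (by
            gcongr; exact le_mul_of_one_le_left hA hO1)))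
    (lay_Om (μ := volume) (F := fun x => ENNReal.ofReal (G x)) c hR0 hA (by linarith)
      fun s hs => h s (hR1.trans hs))
  have e0 : {x | r0 ≤ rh Finset.univ c r0 x} = univ := eq_univ_of_forall fun x => le_rh _ _ x
  rw [e0] at a1
  have a5 := lint_const_le (μ := volume) (S := univ) MeasurableSet.univ
    (f := fun x => ENNReal.ofReal
      (R ^ (-2 : ℝ) * (G x * rh Finset.univ c r0 x ^ (-(2 * γ)) * Om c R x)))
    (m := R ^ (-2 : ℝ)) (by positivity) (fun x _ => by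
      rw [ENNReal.ofReal_mul (by positivity), ofReal3 (hG x) (Om_pos c hR0 x).le]) a1
  rw [Measure.restrict_univ] at a5
  refine a5.trans (ENNReal.ofReal_le_ofReal (le_trans (le_of_eq ?_) hR2))
  rw [show e3 - 2 * γ - 2 = (-2 : ℝ) + (e3 - 2 * γ) by ring, Real.rpow_add hR0]; ring

/-- the left-over integrand of the master inequality -/
def lo (W : EE n → ℝ) (γ P f0 : ℝ) (c : EE n) (r0 R : ℝ) (x : EE n) : ℝ≥0∞ :=
  ENNReal.ofReal (min (f0 ^ (-2 : ℝ)) (f0 ^ P * rh Finset.univ c r0 x ^ (-P - 2)) *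
    (W x * rh Finset.univ c r0 x ^ (-(2 * γ)) * Om c R x))

theorem lo_out {W : EE n → ℝ} (c : EE n) (hW : ∀ x, 0 ≤ W x) {γ P f0 r0 R A e a : ℝ} (hγ : 0 < γ)
    (hP : 0 < P) (he : e < P + 2 + 2 * γ) (hA : 0 ≤ A) (hf : 0 < f0) (hR : 0 < R) (ha : 1 ≤ a)
    (h : ∀ s, 1 ≤ s → ∫⁻ x in ball c s, ENNReal.ofReal (W x) ≤ ENNReal.ofReal (A * s ^ e)) :
    ∫⁻ x in {x | a ≤ rh Finset.univ c r0 x}, lo W γ P f0 c r0 R x ≤
      ENNReal.ofReal (f0 ^ P * (cOut e (P + 2 + 2 * γ) * A * a ^ (e - (P + 2 + 2 * γ)))) := by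
  have hm := measurable_rh Finset.univ c r0
  have ha0 : 0 < a := one_pos.trans_le ha
  refine lint_const_le (measurableSet_le measurable_const hm) (by positivity) (fun x hx => ?_)
    (lay_out (μ := volume) (F := fun x => ENNReal.ofReal (W x)) hm ha0 hA (by positivity) he
      fun s hs => (lintegral_mono_set (rh_lt_sub c r0 s)).trans (h s (ha.trans hs)))
  have h3 : 0 < rh Finset.univ c r0 x := ha0.trans_le hx
  have h4 := hW x
  have h5 := Om_pos c hR x
  unfold lo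
  rw [← ENNReal.ofReal_mul h4, ← ENNReal.ofReal_mul (by positivity)]
  refine ENNReal.ofReal_le_ofReal ?_
  calc _ ≤ f0 ^ P * rh Finset.univ c r0 x ^ (-P - 2) *
        (W x * rh Finset.univ c r0 x ^ (-(2 * γ)) * 1) := by
        gcongr
        · exact min_le_right _ _
        · exact Om_le_one c hR x
    _ = _ := by
        rw [show -(P + 2 + 2 * γ) = (-P - 2) + -(2 * γ) by ring, Real.rpow_add h3]; ring

theorem lo_in {W : EE n → ℝ} (c : EE n) (hW : ∀ x, 0 ≤ W x) {γ P f0 r0 R A e : ℝ} (hγ : 0 < γ)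
    (he : 2 * γ < e) (hA : 0 ≤ A) (hf : 0 < f0) (hR : 0 < R) (hr : 1 ≤ r0)
    (h : ∀ s, 1 ≤ s → ∫⁻ x in ball c s, ENNReal.ofReal (W x) ≤ ENNReal.ofReal (A * s ^ e)) :
    ∫⁻ x in {x | r0 ≤ rh Finset.univ c r0 x ∧ rh Finset.univ c r0 x < f0}, lo W γ P f0 c r0 R x ≤
      ENNReal.ofReal (f0 ^ (-2 : ℝ) * (cIn e (2 * γ) * A * f0 ^ (e - 2 * γ))) := by
  have hm := measurable_rh Finset.univ c r0
  have hr0 : 0 < r0 := one_pos.trans_le hr
  refine lint_const_le ((measurableSet_le measurable_const hm).inter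
    (measurableSet_lt hm measurable_const)) (by positivity) (fun x hx => ?_)
    (lay_in (μ := volume) (F := fun x => ENNReal.ofReal (W x)) hm hr0 hf hA (by positivity) he
      fun s hs _ => (lintegral_mono_set (rh_lt_sub c r0 s)).trans (h s (hr.trans hs)))
  have h3 : 0 < rh Finset.univ c r0 x := hr0.trans_le hx.1
  have h4 := hW x
  have h5 := Om_pos c hR x
  unfold lo
  rw [← ENNReal.ofReal_mul h4, ← ENNReal.ofReal_mul (by positivity)]
  refine ENNReal.ofReal_le_ofReal ?_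
  calc _ ≤ f0 ^ (-2 : ℝ) * (W x * rh Finset.univ c r0 x ^ (-(2 * γ)) * 1) := by
        gcongr
        · exact min_le_left _ _
        · exact Om_le_one c hR x
    _ = _ := by ring

theorem lo_all {W : EE n → ℝ} (c : EE n) (hW : ∀ x, 0 ≤ W x) {γ P f0 r0 R A e : ℝ} (hγ : 0 < γ)
    (hP : 0 < P) (he : e < P + 2 + 2 * γ) (hA : 0 ≤ A) (hf : 0 < f0) (hR : 0 < R) (hr : 1 ≤ r0)
    (h : ∀ s, 1 ≤ s → ∫⁻ x in ball c s, ENNReal.ofReal (W x) ≤ ENNReal.ofReal (A * s ^ e)) :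
    ∫⁻ x, lo W γ P f0 c r0 R x ≤
      ENNReal.ofReal (f0 ^ P * (cOut e (P + 2 + 2 * γ) * A * r0 ^ (e - (P + 2 + 2 * γ)))) := by
  have a1 := lo_out (r0 := r0) c hW hγ hP he hA hf hR hr h
  have e0 : {x | r0 ≤ rh Finset.univ c r0 x} = univ := eq_univ_of_forall fun x => le_rh _ _ x
  rwa [e0, Measure.restrict_univ] at a1

theorem le_ofReal_of_forall {x : ℝ≥0∞} {K C M : ℝ}
    (h : ∀ ε : ℝ, 0 < ε → x ≤ ENNReal.ofReal (K * (C * (ε + M)))) :
    x ≤ ENNReal.ofReal (K * (C * M)) := by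
  have h1 : Tendsto (fun ε : ℝ => ENNReal.ofReal (K * (C * (ε + M)))) (𝓝[>] 0)
      (𝓝 (ENNReal.ofReal (K * (C * (0 + M))))) :=
    ((ENNReal.continuous_ofReal.comp (by fun_prop)).tendsto 0).mono_left nhdsWithin_le_nhds
  rw [zero_add] at h1
  exact ge_of_tendsto h1 (eventually_nhdsWithin_of_forall h)

variable {v G J : EE n → ℝ} {γ s P θ b C0 κ1 c C rs f0 : ℝ}

/-- the master inequality with `I = univ` and real bounds of its right side -/
theorem MIData.real (hD : MIData v γ s P θ b C0 κ1 c C rs f0 G J) (hn : 7 ≤ n) (hC : 0 < C)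
    (x0 : EE n) {r0 R M1 M2 : ℝ} (hr : rs ≤ r0) (hR : r0 ≤ R) (hf : f0 ≤ R) (h1 : 0 ≤ M1)
    (h2 : 0 ≤ M2) (hM1 : ∫⁻ x, ENNReal.ofReal (R ^ (-2 : ℝ) *
      (G x * rh Finset.univ x0 r0 x ^ (-(2 * γ)) * Om x0 R x)) ≤ ENNReal.ofReal M1)
    (hM2 : ∫⁻ x, lo (fun x => psi v x ^ b) γ P f0 x0 r0 R x ≤ ENNReal.ofReal M2) :
    ∫⁻ x in ball x0 R, ENNReal.ofReal (G x * rh Finset.univ x0 r0 x ^ (-(2 * γ) - 2) +
      J x * rh Finset.univ x0 r0 x ^ (-(2 * γ))) ≤ ENNReal.ofReal (C * (M1 + M2)) := by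
  have t3 := (hD.mi Finset.univ x0 r0 R (by simpa using hn) hr hR hf).trans
    (mul_le_mul_right (add_le_add hM1 hM2) _)
  rwa [← ENNReal.ofReal_add h1 h2, ← ENNReal.ofReal_mul hC.le] at t3

theorem le_mul_rh {g r0 r1 α : ℝ} {x0 x : EE n} (hg : 0 ≤ g) (hr : 0 < r0) (hα : 0 ≤ α)
    (hx : x ∈ ball x0 r1) : g ≤ (r0 + r1) ^ α * (g * rh Finset.univ x0 r0 x ^ (-α)) := by
  have h1 : 0 < rh Finset.univ x0 r0 x := hr.trans_le (le_rh _ _ x)
  have h2 : rh Finset.univ x0 r0 x ≤ r0 + r1 := by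
    have := rh_le Finset.univ x0 hr.le x
    rw [mem_ball, dist_eq_norm] at hx
    linarith
  calc g = rh Finset.univ x0 r0 x ^ α * (g * rh Finset.univ x0 r0 x ^ (-α)) := by
        rw [Real.rpow_neg h1.le]
        have : 0 < rh Finset.univ x0 r0 x ^ α := by positivity
        field_simp
    _ ≤ _ := by gcongr

/-- the master inequality after `R → ∞` -/
theorem MIData.inf (hD : MIData v γ s P θ b C0 κ1 c C rs f0 G J) (hn : 7 ≤ n) (hγ : 0 < γ)
    (hγ2 : γ < 2) (hC : 0 < C) (hrs : 1 ≤ rs) (x0 : EE n) {r0 r1 a e M : ℝ} (hr : rs ≤ r0)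
    (hr1 : 0 < r1) (ha : 1 ≤ a) (he : e < 2 * γ + 2) (h : Gro G x0 a e) (hM0 : 0 ≤ M)
    (hM : ∀ R, 0 < R → ∫⁻ x, lo (fun x => psi v x ^ b) γ P f0 x0 r0 R x ≤ ENNReal.ofReal M) :
    ∫⁻ x in ball x0 r1, ENNReal.ofReal (G x) ≤
      ENNReal.ofReal ((r0 + r1) ^ (2 * γ + 2) * (C * M)) := by
  have hr0 : 0 < r0 := one_pos.trans_le (hrs.trans hr)
  refine le_ofReal_of_forall fun ε hε => ?_
  obtain ⟨R, hR, hR2⟩ := outer_small x0 hD.nG hγ hγ2 (hrs.trans hr) ha he h hε (max (max r0 f0) r1)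
  have hR1 : r0 ≤ R := ((le_max_left _ _).trans (le_max_left _ _)).trans hR
  have t := hD.real hn hC x0 hr hR1 (((le_max_right _ _).trans (le_max_left _ _)).trans hR) hε.le
    hM0 hR2 (hM R (hr0.trans_le hR1))
  refine lint_const_le measurableSet_ball (by positivity) (fun x hx => ?_)
    ((lintegral_mono_set (ball_subset_ball ((le_max_right _ _).trans hR))).trans t)
  rw [← ENNReal.ofReal_mul (by positivity)]
  refine ENNReal.ofReal_le_ofReal ((le_mul_rh (α := 2 * γ + 2) (hD.nG x) hr0 (by positivity)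
    hx).trans ?_)
  have h3 : 0 < rh Finset.univ x0 r0 x := hr0.trans_le (le_rh _ _ x)
  have h4 := hD.nJ x
  rw [show -(2 * γ + 2) = -(2 * γ) - 2 by ring]
  gcongr
  exact le_add_of_nonneg_right (by positivity)

/-- growth of `J` from growth of `G` -/
theorem MIData.groJ (hD : MIData v γ s P θ b C0 κ1 c C rs f0 G J) (hn : 7 ≤ n)
    (hE : Expo γ s P θ b) (hC : 0 < C) (hrs : 1 ≤ rs) (hf : 1 ≤ f0) (hpos : ∀ x, 0 < psi v x)
    (x0 : EE n) {e m : ℝ} (hW : Gro (fun x => psi v x ^ b) x0 1 7) (he : e ≤ 7)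
    (h : Gro G x0 (max rs f0) e) (hm1 : e - 2 ≤ m) (hm2 : 5 - P ≤ m) : Gro J x0 (max rs f0) m := by
  obtain ⟨A, hA, hW⟩ := hW
  obtain ⟨A1, hA1, h⟩ := h
  have hγ := hE.g0
  have hO := cOm_pos (e := e) (by linarith)
  have hO2 := cOut_pos (e := 7) (α := P + 2 + 2 * γ) (by linarith [hE.c2])
  have hf0 : 0 < f0 := one_pos.trans_le hf
  refine ⟨2 ^ (2 * γ) * (C * (cOm e * A1 + f0 ^ P * (cOut 7 (P + 2 + 2 * γ) * A))), by positivity,
    fun R hR => ?_⟩
  have hR1 : rs ≤ R := (le_max_left _ _).trans hR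
  have hR3 : 1 ≤ R := hrs.trans hR1
  have hR0 : 0 < R := one_pos.trans_le hR3
  have a1 := lint_const_le (μ := volume) (S := univ) MeasurableSet.univ
    (f := fun x => ENNReal.ofReal
      (R ^ (-2 : ℝ) * (G x * rh Finset.univ x0 R x ^ (-(2 * γ)) * Om x0 R x)))
    (g := fun x => ENNReal.ofReal (G x) * ENNReal.ofReal (Om x0 R x))
    (m := R ^ (-2 : ℝ) * R ^ (-(2 * γ))) (M := cOm e * A1 * R ^ e) (by positivity) (fun x _ => by
      have h4 := hD.nG x
      have h5 := Om_pos x0 hR0 x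
      rw [← ENNReal.ofReal_mul h4, ← ENNReal.ofReal_mul (by positivity)]
      refine ENNReal.ofReal_le_ofReal ?_
      have h6 : rh Finset.univ x0 R x ^ (-(2 * γ)) ≤ R ^ (-(2 * γ)) :=
        Real.rpow_le_rpow_of_nonpos hR0 (le_rh _ _ x) (by linarith)
      calc _ ≤ R ^ (-2 : ℝ) * (G x * R ^ (-(2 * γ)) * Om x0 R x) := by gcongr
        _ = _ := by ring)
    (by
      rw [Measure.restrict_univ]
      exact lay_Om (μ := volume) (F := fun x => ENNReal.ofReal (G x)) x0 hR0 hA1 (by linarith)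
        fun s hs => h s (hR.trans hs))
  rw [Measure.restrict_univ] at a1
  have a2 := lo_all (r0 := R) (R := R) x0 (fun x => (Real.rpow_pos_of_pos (hpos x) b).le) hγ hE.P0
    (e := 7) (by linarith [hE.c2]) hA hf0 hR0 hR3 hW
  have t := hD.real hn hC x0 hR1 le_rfl ((le_max_right _ _).trans hR) (by positivity)
    (by positivity) a1 a2
  refine (lint_const_le measurableSet_ball (m := (R + R) ^ (2 * γ)) (by positivity)
    (fun x hx => ?_) t).trans (ENNReal.ofReal_le_ofReal ?_)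
  · rw [← ENNReal.ofReal_mul (by positivity)]
    refine ENNReal.ofReal_le_ofReal ((le_mul_rh (α := 2 * γ) (hD.nJ x) hR0 (by positivity)
      hx).trans ?_)
    have h3 : 0 < rh Finset.univ x0 R x := hR0.trans_le (le_rh _ _ x)
    have h4 := hD.nG x
    gcongr
    exact le_add_of_nonneg_left (by positivity)
  · have e1 : R ^ (2 * γ) * (R ^ (-2 : ℝ) * R ^ (-(2 * γ)) * R ^ e) ≤ R ^ m := by
      rw [← Real.rpow_add hR0, ← Real.rpow_add hR0, ← Real.rpow_add hR0]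
      exact Real.rpow_le_rpow_of_exponent_le hR3 (by linarith)
    have e2 : R ^ (2 * γ) * R ^ (7 - (P + 2 + 2 * γ)) ≤ R ^ m := by
      rw [← Real.rpow_add hR0]
      exact Real.rpow_le_rpow_of_exponent_le hR3 (by linarith)
    rw [← two_mul, Real.mul_rpow zero_le_two hR0.le]
    calc _ = 2 ^ (2 * γ) * (C * (cOm e * A1 * (R ^ (2 * γ) * (R ^ (-2 : ℝ) * R ^ (-(2 * γ)) * R ^ e)) +
          f0 ^ P * (cOut 7 (P + 2 + 2 * γ) * A) * (R ^ (2 * γ) * R ^ (7 - (P + 2 + 2 * γ))))) := by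
          ring
      _ ≤ 2 ^ (2 * γ) * (C * (cOm e * A1 * R ^ m +
          f0 ^ P * (cOut 7 (P + 2 + 2 * γ) * A) * R ^ m)) := by gcongr
      _ = _ := by ring

/-- growth of `G` from growth of `J` -/
theorem MIData.groG (hD : MIData v γ s P θ b C0 κ1 c C rs f0 G J) (hE : Expo γ s P θ b)
    (hpos : ∀ x, 0 < psi v x) (x0 : EE n) {a m : ℝ} (ha : 1 ≤ a)
    (hW : Gro (fun x => psi v x ^ b) x0 1 7) (h : Gro J x0 a m) :
    Gro G x0 a (θ * m + 7 * (1 - θ)) := by
  obtain ⟨A, hA, hW⟩ := hW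
  obtain ⟨A1, hA1, h⟩ := h
  obtain ⟨C1, hC1⟩ := hD.crude
  have h0 := hE.t0
  have h1 : 0 < 1 - θ := sub_pos.2 hE.t1
  set C2 := max C1 0 with hC2
  have hC2' : 0 ≤ C2 := le_max_right _ _
  refine ⟨C2 * (A1 + A), by positivity, fun R hR => ?_⟩
  have hR0 : 0 < R := one_pos.trans_le (ha.trans hR)
  set l1 := R ^ ((1 - θ) * (7 - m)) with hl1
  set l2 := R ^ (-(θ * (7 - m))) with hl2
  have hl1' : 0 < l1 := by positivity
  have hl2' : 0 < l2 := by positivity
  have key : ∀ x, ENNReal.ofReal (G x) ≤ ENNReal.ofReal (C2 * l1) * ENNReal.ofReal (J x) +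
      ENNReal.ofReal (C2 * l2) * ENNReal.ofReal (psi v x ^ b) := fun x => by
    have hJ := hD.nJ x
    have hw : 0 < psi v x ^ b := Real.rpow_pos_of_pos (hpos x) b
    rw [← ENNReal.ofReal_mul (by positivity), ← ENNReal.ofReal_mul (by positivity),
      ← ENNReal.ofReal_add (by positivity) (by positivity)]
    refine ENNReal.ofReal_le_ofReal ((hC1 x).2.trans ?_)
    have y := Real.geom_mean_le_arith_mean2_weighted (w₁ := θ) (w₂ := 1 - θ) (p₁ := l1 * J x)
      (p₂ := l2 * psi v x ^ b) h0.le h1.le (by positivity) (by positivity) (by ring)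
    have e1 : l1 ^ θ * l2 ^ (1 - θ) = 1 := by
      rw [hl1, hl2, ← Real.rpow_mul hR0.le, ← Real.rpow_mul hR0.le, ← Real.rpow_add hR0,
        show (1 - θ) * (7 - m) * θ + -(θ * (7 - m)) * (1 - θ) = 0 by ring, Real.rpow_zero]
    rw [Real.mul_rpow hl1'.le hJ, Real.mul_rpow hl2'.le hw.le] at y
    have y2 : J x ^ θ * (psi v x ^ b) ^ (1 - θ) ≤ l1 * J x + l2 * psi v x ^ b := by
      have p1 : 0 ≤ l1 * J x := by positivity
      have p2 : 0 ≤ l2 * psi v x ^ b := by positivity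
      calc _ = l1 ^ θ * l2 ^ (1 - θ) * (J x ^ θ * (psi v x ^ b) ^ (1 - θ)) := by rw [e1, one_mul]
        _ = l1 ^ θ * J x ^ θ * (l2 ^ (1 - θ) * (psi v x ^ b) ^ (1 - θ)) := by ring
        _ ≤ _ := y
        _ ≤ _ := by nlinarith
    calc C1 * J x ^ θ * (psi v x ^ b) ^ (1 - θ) = C1 * (J x ^ θ * (psi v x ^ b) ^ (1 - θ)) := by ring
      _ ≤ C2 * (J x ^ θ * (psi v x ^ b) ^ (1 - θ)) := by gcongr; exact le_max_left _ _
      _ ≤ C2 * (l1 * J x + l2 * psi v x ^ b) := by gcongr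
      _ = _ := by ring
  calc _ ≤ _ := lintegral_mono key
    _ = ENNReal.ofReal (C2 * l1) * (∫⁻ x in ball x0 R, ENNReal.ofReal (J x)) +
        ENNReal.ofReal (C2 * l2) * ∫⁻ x in ball x0 R, ENNReal.ofReal (psi v x ^ b) := by
        rw [lintegral_add_left (hD.mJ.ennreal_ofReal.const_mul _),
          lintegral_const_mul' _ _ ENNReal.ofReal_ne_top,
          lintegral_const_mul' _ _ ENNReal.ofReal_ne_top]
    _ ≤ ENNReal.ofReal (C2 * l1) * ENNReal.ofReal (A1 * R ^ m) +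
        ENNReal.ofReal (C2 * l2) * ENNReal.ofReal (A * R ^ (7 : ℝ)) := by
        gcongr
        · exact h R hR
        · exact hW R (ha.trans hR)
    _ = _ := by
        rw [← ENNReal.ofReal_mul (by positivity), ← ENNReal.ofReal_mul (by positivity),
          ← ENNReal.ofReal_add (by positivity) (by positivity)]
        congr 1
        have e1 : l1 * R ^ m = R ^ (θ * m + 7 * (1 - θ)) := by
          rw [hl1, ← Real.rpow_add hR0]; congr 1; ring
        have e2 : l2 * R ^ (7 : ℝ) = R ^ (θ * m + 7 * (1 - θ)) := by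
          rw [hl2, ← Real.rpow_add hR0]; congr 1; ring
        calc _ = C2 * A1 * (l1 * R ^ m) + C2 * A * (l2 * R ^ (7 : ℝ)) := by ring
          _ = _ := by rw [e1, e2]; ring

/-- Step 1: `G` grows slower than `R^(2γ+2)` -/
theorem MIData.gro (hD : MIData v γ s P θ b C0 κ1 c C rs f0 G J) (hn : 7 ≤ n)
    (hE : Expo γ s P θ b) (hC : 0 < C) (hrs : 1 ≤ rs) (hf : 1 ≤ f0) (hpos : ∀ x, 0 < psi v x)
    (x0 : EE n) (hW : Gro (fun x => psi v x ^ b) x0 1 7) :
    ∃ e, e < 2 * γ + 2 ∧ Gro G x0 (max rs f0) e := by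
  have h0 := hE.t0
  have h1 : 0 < 1 - θ := sub_pos.2 hE.t1
  have ha : 1 ≤ max rs f0 := hrs.trans (le_max_left _ _)
  set es := max (7 - θ * (P + 2)) ((7 * (1 - θ) - 2 * θ) / (1 - θ)) with hes
  have e1 : es < 2 * γ + 2 := max_lt hE.c4 ((div_lt_iff₀ h1).2 hE.c3)
  have e2 : 7 - θ * (P + 2) ≤ es := le_max_left _ _
  have e3 : 7 * (1 - θ) - 2 * θ ≤ es * (1 - θ) := (div_le_iff₀ h1).1 (le_max_right _ _)
  have e4 : 0 < 7 - es := by linarith [hE.g2]
  have step : ∀ j : ℕ, Gro G x0 (max rs f0) (es + θ ^ j * (7 - es)) := by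
    intro j
    induction j with
    | zero =>
      obtain ⟨A, hA, hW⟩ := hW
      obtain ⟨C1, hC1⟩ := hD.crude
      rw [show es + θ ^ 0 * (7 - es) = 7 by ring]
      refine ⟨max C1 0 * A, by positivity, fun R hR => ?_⟩
      rw [mul_assoc]
      refine lint_const_le measurableSet_ball (le_max_right _ _) (fun x _ => ?_)
        (hW R (ha.trans hR))
      have hw : 0 < psi v x ^ b := Real.rpow_pos_of_pos (hpos x) b
      rw [← ENNReal.ofReal_mul (le_max_right _ _)]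
      exact ENNReal.ofReal_le_ofReal ((hC1 x).1.trans (by gcongr; exact le_max_left _ _))
    | succ j ih =>
      have p1 : θ ^ j ≤ 1 := pow_le_one₀ h0.le hE.t1.le
      have p0 : 0 < θ ^ j * (7 - es) := by positivity
      have hJ := hD.groJ hn hE hC hrs hf hpos x0 hW (by nlinarith) ih
        (le_max_left _ (5 - P)) (le_max_right _ _)
      refine (hD.groG hE hpos x0 ha hW hJ).mono ha ?_
      rw [pow_succ]
      rcases max_choice (es + θ ^ j * (7 - es) - 2) (5 - P) with h | h <;> rw [h] <;> nlinarith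
  obtain ⟨j, hj⟩ := exists_pow_lt_of_lt_one (div_pos (sub_pos.2 e1) e4) hE.t1
  refine ⟨_, ?_, step j⟩
  have := (lt_div_iff₀ e4).1 hj
  linarith

theorem area : AreaStmt := by
  intro n v γ s P θ b C0 κ1 c C rs A e hn hE hC hrs hA he6 he7 hψ hpos _
  have hO := cOut_pos (e := e) (α := P + 2 + 2 * γ) (by linarith [hE.c2])
  refine ⟨2 ^ (2 * γ + 2) * (C * (cOut e (P + 2 + 2 * γ) * A)), by positivity,
    fun f0 G J hf hD x r hr hfr => ?_⟩
  have hr1 : 1 ≤ r := hrs.trans hr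
  have hr0 : 0 < r := one_pos.trans_le hr1
  have hf0 : 0 < f0 := one_pos.trans_le hf
  have hW : Gro (fun x => psi v x ^ b) x 1 7 := Gro.mono ⟨A, hA, hψ x⟩ le_rfl he7
  obtain ⟨e', he', hG⟩ := hD.gro hn hE hC hrs hf hpos x hW
  refine (hD.inf hn hE.g0 hE.g2 hC hrs x hr hr0 (hrs.trans (le_max_left _ _)) he' hG
    (by positivity) fun R hR => lo_all x (fun x => (Real.rpow_pos_of_pos (hpos x) b).le) hE.g0 hE.P0
      (by linarith [hE.c2]) hA hf0 hR hr1 (hψ x)).trans (le_of_eq ?_)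
  congr 1
  have e1 : r ^ (2 * γ + 2) * r ^ (e - (P + 2 + 2 * γ)) = r ^ (e - P) := by
    rw [← Real.rpow_add hr0]; congr 1; ring
  rw [← two_mul, Real.mul_rpow zero_le_two hr0.le, ← e1]; ring

end

end Crest.Agent.N067
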