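import Crest.Agent.N067.K.Defs
import Crest.Agent.N067.A.DVar

/-!
# Row 67, block K: the flat shallow points have the volume of one sheet (leaf K-Good, helper3)

At a flat point some coordinate of `∇ d` is at least `0.18` in size, so `d` leaves `[-1,1]` at the
points `y + 17 j e`, `1 ≤ j ≤ 1/(340 κ)`, for one of the `14` directions `e = ± eᵢ`.  The translates
of the set of such `y` along `e` are pairwise disjoint.
-/

set_option autoImplicit false

open MeasureTheory InnerProductSpace Set Metric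
open scoped RealInnerProductSpace Gradient ENNReal

namespace Crest.Agent.N067

open Crest.Agent.R077

namespace Good'

variable {n : ℕ}

/-- shallow points whose translates along `e` are not shallow -/
def iso (d : EE n → ℝ) (e : EE n) (N : ℕ) : Set (EE n) :=
  {y | |d y| ≤ 1} ∩ ⋂ j : ℕ, {y | 1 ≤ j → j ≤ N → 1 < |d (y + (17 * j : ℝ) • e)|}

theorem meas_iso {d : EE n → ℝ} (hd : Continuous d) (e : EE n) (N : ℕ) :
    MeasurableSet (iso d e N) := by
  refine (measurableSet_le (by fun_prop) measurable_const).inter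
    (MeasurableSet.iInter fun j => ?_)
  by_cases h : 1 ≤ j ∧ j ≤ N
  · simp only [h.1, h.2, forall_const]
    exact measurableSet_lt measurable_const (Continuous.measurable (by fun_prop))
  · convert MeasurableSet.univ
    exact eq_univ_of_forall fun y h1 h2 => absurd ⟨h1, h2⟩ h

theorem pack {d : EE n → ℝ} (hd : Continuous d) {e : EE n} (he : ‖e‖ = 1) (N : ℕ) (x : EE n)
    (R : ℝ) : ((N + 1 : ℕ) : ℝ≥0∞) * volume (iso d e N ∩ ball x R) ≤
      volume (ball x (R + 17 * N)) := by
  have hm := (meas_iso hd e N).inter (measurableSet_ball (x := x) (ε := R))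
  set T : ℕ → Set (EE n) := fun j =>
    (fun z => z + -((17 * j : ℝ) • e)) ⁻¹' (iso d e N ∩ ball x R) with hT
  have key : ∀ i j, i < j → j ≤ N → Disjoint (T i) (T j) := fun i j hij hj => by
    refine disjoint_left.2 fun z h1 h2 => ?_
    have h3 := mem_iInter.1 h2.1.2 (j - i) (by omega) (by omega)
    have h4 : |d (z + -((17 * i : ℝ) • e))| ≤ 1 := h1.1.1
    have h5 : z + -((17 * j : ℝ) • e) + (17 * ((j - i : ℕ) : ℝ)) • e =
        z + -((17 * i : ℝ) • e) := by
      rw [Nat.cast_sub hij.le]; module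
    rw [h5] at h3
    linarith
  have h1 := measure_biUnion_finset (μ := volume) (s := Finset.range (N + 1)) (f := T)
    (fun i hi j hj hij => by
      have hi' : i ≤ N := Nat.lt_succ_iff.1 (Finset.mem_range.1 hi)
      have hj' : j ≤ N := Nat.lt_succ_iff.1 (Finset.mem_range.1 hj)
      rcases lt_or_gt_of_ne hij with h | h
      exacts [key i j h hj', (key j i h hi').symm])
    fun j _ => hm.preimage (by fun_prop)
  simp only [hT, measure_preimage_add_right, Finset.sum_const, Finset.card_range,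
    nsmul_eq_mul] at h1
  rw [← h1]
  refine measure_mono (iUnion₂_subset fun j hj z hz => ?_)
  have hj' : (j : ℝ) ≤ N := by exact_mod_cast Nat.lt_succ_iff.1 (Finset.mem_range.1 hj)
  have h2 : dist (z + -((17 * j : ℝ) • e)) x < R := hz.2
  have h3 : dist z (z + -((17 * j : ℝ) • e)) = 17 * j := by
    rw [dist_self_add_right, norm_neg, norm_smul, he, mul_one, Real.norm_of_nonneg (by positivity)]
  have h4 := dist_triangle z (z + -((17 * j : ℝ) • e)) x
  rw [mem_ball]; linarith

/-- the fourteen directions -/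
noncomputable def dir (k : Fin 7 × Bool) : EE 7 := if k.2 then ev k.1 else -ev k.1

theorem norm_dir (k : Fin 7 × Bool) : ‖dir k‖ = 1 := by
  unfold dir; split_ifs <;> simp

theorem exists_dir {g : EE 7} (hg : 1 / 2 ≤ ‖g‖) : ∃ k, 18 / 100 ≤ ⟪g, dir k⟫ := by
  by_contra h
  push Not at h
  have h1 : ∀ i, g i ^ 2 ≤ (18 / 100) ^ 2 := fun i => by
    have a := h (i, true)
    have b := h (i, false)
    simp [dir, EuclideanSpace.inner_single_right] at a b
    nlinarith
  have h2 : ‖g‖ ^ 2 ≤ ∑ _i : Fin 7, (18 / 100 : ℝ) ^ 2 := by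
    rw [EuclideanSpace.real_norm_sq_eq]
    exact Finset.sum_le_sum fun i _ => h1 i
  norm_num at h2
  nlinarith

theorem mem_iso {v : EE n → ℝ} {κ : ℝ} (hκ : 0 < κ) {y e : EE n} (he : ‖e‖ = 1) (h1 : y ∈ Sh v)
    (h2 : Flat v κ y) (h3 : 18 / 100 ≤ ⟪∇ (dd v) y, e⟫) {N : ℕ} (hN : 340 * κ * N ≤ 1) :
    y ∈ iso (dd v) e N := by
  refine ⟨h1, mem_iInter.2 fun j hj1 hj2 => ?_⟩
  have k1 : (1 : ℝ) ≤ j := by exact_mod_cast hj1
  have k2 : (j : ℝ) ≤ N := by exact_mod_cast hj2
  have h4 := (abs_le.1 (h2 (y + (17 * j : ℝ) • e))).1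
  rw [add_sub_cancel_left, norm_smul, he, mul_one, Real.norm_of_nonneg (by positivity),
    real_inner_smul_right] at h4
  have h5 := (abs_le.1 (show |dd v y| ≤ 1 from h1)).1
  have h6 : 340 * κ * j ≤ 1 := le_trans (by gcongr) hN
  refine lt_of_lt_of_le ?_ (le_abs_self _)
  nlinarith

end Good'
open Good'

theorem good (h : FlatNStmt) : GoodStmt := by
  intro v hv hs
  obtain ⟨κ0, hκ0, hF⟩ := h 7 v hv hs
  set ω := (volume (ball (0 : EE 7) 1)).toReal with hω
  have hω' : volume (ball (0 : EE 7) 1) = ENNReal.ofReal ω :=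
    (ENNReal.ofReal_toReal measure_ball_lt_top.ne).symm
  have hω0 : 0 ≤ ω := ENNReal.toReal_nonneg
  refine ⟨14 * (340 * (2 ^ 7 * ω)), κ0, by positivity, hκ0, fun κ x R hκ hκκ hR => ?_⟩
  have hR0 : 0 < R := lt_of_lt_of_le (by positivity) hR
  set N := ⌊1 / (340 * κ)⌋₊ with hN
  have hN1 : 340 * κ * N ≤ 1 := by
    have := Nat.floor_le (show 0 ≤ 1 / (340 * κ) by positivity)
    rwa [le_div_iff₀' (by positivity)] at this
  have hN2 : 1 ≤ 340 * κ * (N + 1 : ℕ) := by
    have := (Nat.lt_floor_add_one (1 / (340 * κ))).le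
    rw [div_le_iff₀' (by positivity)] at this
    exact_mod_cast this
  have hN3 : R + 17 * N ≤ 2 * R := by
    rw [div_le_iff₀ hκ] at hR
    have : κ * (17 * N) ≤ κ * R := by nlinarith
    linarith [le_of_mul_le_mul_left this hκ]
  have h1 : Sh v ∩ {y | Flat v κ y} ∩ ball x R ⊆ ⋃ k, iso (dd v) (dir k) N ∩ ball x R := by
    rintro y ⟨⟨a, b⟩, c⟩
    obtain ⟨k, hk⟩ := exists_dir (hF y fun z => (b z).trans (by gcongr))
    exact mem_iUnion.2 ⟨k, mem_iso hκ (norm_dir k) a b hk hN1, c⟩
  have h2 : ∀ k, volume (iso (dd v) (dir k) N ∩ ball x R) ≤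
      ENNReal.ofReal (340 * κ * ((2 * R) ^ 7 * ω)) := fun k => by
    have h3 := (pack hv.dd_sm.continuous (norm_dir k) N x R).trans
      (measure_mono (ball_subset_ball hN3))
    rw [Measure.addHaar_ball_of_pos _ _ (by positivity), hω', finrank_euclideanSpace_fin,
      ← ENNReal.ofReal_mul (by positivity)] at h3
    rw [ENNReal.ofReal_mul (by positivity)]
    refine le_trans ?_ (mul_le_mul_right h3 _)
    rw [← mul_assoc, ← ENNReal.ofReal_natCast, ← ENNReal.ofReal_mul (by positivity)]
    exact le_mul_of_one_le_left' (ENNReal.one_le_ofReal.2 hN2)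
  refine (measure_mono h1).trans ((measure_iUnion_fintype_le _ _).trans
    ((Finset.sum_le_sum fun k _ => h2 k).trans (le_of_eq ?_)))
  rw [← ENNReal.ofReal_sum_of_nonneg fun _ _ => by positivity]
  congr 1
  rw [show (7 : ℝ) = (7 : ℕ) by norm_num, Real.rpow_natCast]
  simp; ring

end Crest.Agent.N067
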