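import Crest.Agent.N067.K.Defs
import Crest.Agent.N067.A.LimS
import Crest.Agent.N067.A.Ball

/-!
# Row 67, block K: `psiMass` (helper61, task 704)
-/

set_option autoImplicit false
set_option maxHeartbeats 400000

open MeasureTheory Topology Filter Set Metric
open scoped ENNReal

namespace Crest.Agent.N067

open Crest.Agent.R077

noncomputable section

namespace PsiM

variable {n : ℕ}

/-- decay of `ψ` away from the zeros -/
theorem psi_le (n : ℕ) : ∃ C : ℝ, 0 < C ∧ ∀ v : EE n → ℝ, Sol v → ∀ (x : EE n) (R : ℝ),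
    (∀ y ∈ ball x R, v y ≠ 0) → psi v x ≤ C * Real.exp (-R) := by
  have h2 : (1 : ℝ) < Real.sqrt 2 := by
    rw [Real.lt_sqrt (by norm_num)]; norm_num
  obtain ⟨C, hC⟩ := decay n 1 zero_le_one h2
  refine ⟨2 * (|C| + 1), by positivity, fun v hv x R h => ?_⟩
  have hx := abs_lt.1 (hv.lt x)
  have hE := Real.exp_pos (-R)
  have hC' : C * Real.exp (-1 * R) ≤ (|C| + 1) * Real.exp (-R) := by
    rw [neg_one_mul]
    exact mul_le_mul_of_nonneg_right (by linarith [le_abs_self C]) hE.le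
  have hs : (∀ y ∈ ball x R, 0 < v y) ∨ ∀ y ∈ ball x R, 0 < -v y := by
    by_contra hc
    push Not at hc
    obtain ⟨⟨y, hy, h1⟩, z, hz, h3⟩ := hc
    obtain ⟨w, hw, h4⟩ := (convex_ball x R).isPreconnected.intermediate_value hy hz
      hv.sm.continuous.continuousOn (show (0 : ℝ) ∈ Icc (v y) (v z) from ⟨h1, by linarith⟩)
    exact h w hw h4
  unfold psi
  rcases hs with hs | hs
  · have := (hC v hv.isSol x R hs).trans hC'
    nlinarith [sq_nonneg (1 - v x)]
  · have := (hC _ hv.isSol.neg x R hs).trans hC'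
    nlinarith [sq_nonneg (1 + v x)]

theorem psi_pos' {v : EE n → ℝ} (hv : Sol v) (x : EE n) : 0 < psi v x := by
  have hx := abs_lt.1 (hv.lt x)
  unfold psi; nlinarith

theorem zero_ex {v : EE n → ℝ} (hv : Sol v) : {y | v y = 0}.Nonempty := by
  by_contra hc
  obtain ⟨C, hC0, hC⟩ := psi_le n
  have h1 : ∀ R : ℝ, psi v 0 ≤ C * Real.exp (-R) := fun R =>
    hC v hv 0 R fun y _ hy => hc ⟨y, hy⟩
  have h2 : Tendsto (fun R : ℝ => C * Real.exp (-R)) atTop (𝓝 (C * 0)) :=
    Real.tendsto_exp_neg_atTop_nhds_zero.const_mul C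
  have := ge_of_tendsto' h2 h1
  linarith [psi_pos' hv 0]

theorem ball_sub {v : EE n → ℝ} (hv : Sol v) {y : EE n} (hy : v y = 0) : ball y 1 ⊆ Sh v := by
  intro z hz
  have h1 := hv.abs_dd_sub_le z y
  have h2 : dd v y = 0 := by simp [dd, hy]
  rw [h2, sub_zero] at h1
  exact h1.trans (mem_ball_iff_norm.1 hz).le

/-- volume of the part of `S` near `z` -/
def FF (S : Set (EE n)) (r : ℝ) (z : EE n) : ℝ≥0∞ :=
  ∫⁻ y in S, {p : EE n × EE n | dist p.1 p.2 < r}.indicator 1 (z, y)

theorem meas_T (r : ℝ) :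
    Measurable ({p : EE n × EE n | dist p.1 p.2 < r}.indicator (1 : EE n × EE n → ℝ≥0∞)) :=
  measurable_one.indicator (isOpen_lt continuous_dist continuous_const).measurableSet

theorem meas_FF (S : Set (EE n)) (r : ℝ) : Measurable (FF S r) :=
  (meas_T r).lintegral_prod_right'

theorem int_FF (S : Set (EE n)) (r : ℝ) : ∫⁻ z, FF S r z = volume (ball (0 : EE n) r) * volume S := by
  unfold FF
  rw [lintegral_lintegral_swap (f := fun z y =>
    {p : EE n × EE n | dist p.1 p.2 < r}.indicator (1 : EE n × EE n → ℝ≥0∞) (z, y))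
    (meas_T r).aemeasurable]
  have : ∀ y : EE n, ∫⁻ z, {p : EE n × EE n | dist p.1 p.2 < r}.indicator 1 (z, y) =
      volume (ball (0 : EE n) r) := by
    intro y
    rw [← Measure.addHaar_ball_center volume y r, ← lintegral_indicator_one measurableSet_ball]
    rfl
  simp only [this]
  rw [setLIntegral_const]

theorem le_FF {S : Set (EE n)} {r : ℝ} {z y : EE n} (h1 : ball y 1 ⊆ S) (h2 : ball y 1 ⊆ ball z r) :
    volume (ball (0 : EE n) 1) ≤ FF S r z := by
  rw [← Measure.addHaar_ball_center volume y 1]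
  refine le_trans ?_ (lintegral_mono_set h1)
  rw [← setLIntegral_one]
  refine setLIntegral_mono' measurableSet_ball fun w hw => ?_
  rw [indicator_of_mem (show (z, w) ∈ {p : EE n × EE n | dist p.1 p.2 < r} from mem_ball'.1 (h2 hw))]
  rfl

end PsiM

open PsiM in
theorem psiMass : PsiMassStmt := by
  intro n v Θ e b hv hΘ he hb hM
  obtain ⟨C, hC0, hC⟩ := psi_le n
  set k : ℕ := n + ⌈e⌉₊ with hk
  let a : ℕ → ℝ := fun j => C ^ b * Real.exp (-b * j)
  have ha : ∀ j, 0 ≤ a j := fun j => by positivity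
  let t : ℕ → ℝ := fun j => a j * (((j : ℝ) + 3) ^ k * Θ)
  have ht0 : ∀ j, 0 ≤ t j := fun j => by have := ha j; positivity
  have ht : Summable t := by
    have h1 := (summable_nat_add_iff 3).2 (Real.summable_pow_mul_exp_neg_nat_mul k hb)
    refine (h1.mul_left (C ^ b * Real.exp (3 * b) * Θ)).congr fun j => ?_
    have h2 : Real.exp (-b * j) = Real.exp (3 * b) * Real.exp (-b * ((j + 3 : ℕ) : ℝ)) := by
      rw [← Real.exp_add]; congr 1; push_cast; ring
    simp only [t, a, h2]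
    push_cast; ring
  refine ⟨∑' j, t j, tsum_nonneg ht0, fun x R hR => ?_⟩
  have hR0 : 0 < R := by linarith
  have hV0 : volume (ball (0 : EE n) 1) ≠ 0 := (measure_ball_pos _ _ one_pos).ne'
  have hV1 : volume (ball (0 : EE n) 1) ≠ ⊤ := measure_ball_lt_top.ne
  have hZ : IsClosed {y | v y = 0} := isClosed_eq hv.sm.continuous continuous_const
  have key : ∀ z ∈ ball x R, ENNReal.ofReal (psi v z ^ b) * volume (ball (0 : EE n) 1) ≤
      ∑' j : ℕ, ENNReal.ofReal (a j) * FF (Sh v ∩ ball x (R + (j + 2))) (j + 2) z := by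
    intro z hz
    obtain ⟨y, hy, hd⟩ := hZ.exists_infDist_eq_dist (zero_ex hv) z
    have h1 : psi v z ≤ C * Real.exp (-dist z y) := hC v hv z _ fun w hw h0 =>
      notMem_of_dist_lt_infDist (s := {y | v y = 0}) (by rw [hd]; exact mem_ball'.1 hw) h0
    have h2 := Nat.floor_le (dist_nonneg (x := z) (y := y))
    have h3 := Nat.lt_floor_add_one (dist z y)
    refine le_trans ?_ (ENNReal.le_tsum ⌊dist z y⌋₊)
    have h4 : ball y 1 ⊆ ball z ((⌊dist z y⌋₊ : ℝ) + 2) :=
      ball_subset_ball' (by rw [dist_comm]; linarith)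
    have h5 : ball z ((⌊dist z y⌋₊ : ℝ) + 2) ⊆ ball x (R + (⌊dist z y⌋₊ + 2)) :=
      ball_subset_ball' (by linarith [mem_ball.1 hz])
    refine mul_le_mul' (ENNReal.ofReal_le_ofReal ?_)
      (le_FF (subset_inter (ball_sub hv hy) (h4.trans h5)) h4)
    refine (Real.rpow_le_rpow (psi_pos' hv z).le h1 hb.le).trans ?_
    rw [Real.mul_rpow hC0.le (Real.exp_pos _).le, ← Real.exp_mul]
    refine mul_le_mul_of_nonneg_left (Real.exp_le_exp.2 ?_) (by positivity)
    nlinarith
  rw [← ENNReal.mul_le_mul_iff_left hV0 hV1, ← lintegral_mul_const' _ _ hV1]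
  refine (setLIntegral_mono' measurableSet_ball key).trans (le_trans (setLIntegral_le_lintegral _ _) ?_)
  rw [lintegral_tsum fun j => ((meas_FF _ _).const_mul _).aemeasurable, ← tsum_mul_right,
    ENNReal.ofReal_tsum_of_nonneg (fun j => mul_nonneg (ht0 j) (by positivity)) (ht.mul_right _),
    ← ENNReal.tsum_mul_right]
  refine ENNReal.tsum_le_tsum fun j => ?_
  have hj : (0 : ℝ) ≤ j := Nat.cast_nonneg j
  rw [lintegral_const_mul _ (meas_FF _ _), int_FF,
    Measure.addHaar_ball_of_pos volume (0 : EE n) (show (0 : ℝ) < j + 2 by linarith),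
    finrank_euclideanSpace_fin]
  have h1 := hM x (R + (j + 2)) (by linarith)
  have h2 : (R + (j + 2)) ^ e ≤ ((j : ℝ) + 3) ^ ⌈e⌉₊ * R ^ e := by
    calc (R + (j + 2)) ^ e ≤ (((j : ℝ) + 3) * R) ^ e :=
          Real.rpow_le_rpow (by linarith) (by nlinarith) he
      _ = ((j : ℝ) + 3) ^ e * R ^ e := Real.mul_rpow (by linarith) hR0.le
      _ ≤ _ := by
          refine mul_le_mul_of_nonneg_right ?_ (by positivity)
          rw [← Real.rpow_natCast]
          exact Real.rpow_le_rpow_of_exponent_le (by linarith) (Nat.le_ceil e)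
  have h3 : ((j : ℝ) + 2) ^ n ≤ ((j : ℝ) + 3) ^ n := pow_le_pow_left₀ (by linarith) (by linarith) n
  calc ENNReal.ofReal (a j) * (ENNReal.ofReal (((j : ℝ) + 2) ^ n) * volume (ball (0 : EE n) 1) *
        volume (Sh v ∩ ball x (R + (j + 2))))
      ≤ ENNReal.ofReal (a j) * (ENNReal.ofReal (((j : ℝ) + 2) ^ n) * volume (ball (0 : EE n) 1) *
        ENNReal.ofReal (Θ * (R + (j + 2)) ^ e)) := by gcongr
    _ = ENNReal.ofReal (a j * (((j : ℝ) + 2) ^ n * (Θ * (R + (j + 2)) ^ e))) *
        volume (ball (0 : EE n) 1) := by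
        rw [ENNReal.ofReal_mul (ha j), ENNReal.ofReal_mul (p := ((j : ℝ) + 2) ^ n) (by positivity)]
        ring
    _ ≤ _ := by
        refine mul_le_mul' (ENNReal.ofReal_le_ofReal ?_) le_rfl
        calc a j * (((j : ℝ) + 2) ^ n * (Θ * (R + (j + 2)) ^ e))
            ≤ a j * (((j : ℝ) + 3) ^ n * (Θ * (((j : ℝ) + 3) ^ ⌈e⌉₊ * R ^ e))) := by
              have := ha j
              gcongr
          _ = _ := by simp only [t, hk]; ring

end

end Crest.Agent.N067
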