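import Crest.Agent.N067.K.Area
import Crest.Agent.N067.K.PsiMass
import Crest.Agent.N067.K.Good
import Crest.Agent.N067.K.FlatN

/-!
# Row 67, block K (helper39): `MIStmt → SevenStmt`
-/

set_option autoImplicit false

open MeasureTheory Laplacian InnerProductSpace Topology Filter Set Metric
open scoped ENNReal RealInnerProductSpace Gradient

namespace Crest.Agent.N067

open Crest.Agent.R077

noncomputable section

variable {n : ℕ}

theorem vol_ball_le (n : ℕ) : ∃ Θ : ℝ, 0 ≤ Θ ∧ ∀ (x : EE n) (R : ℝ), 0 ≤ R →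
    volume (ball x R) ≤ ENNReal.ofReal (Θ * R ^ (n : ℝ)) := by
  refine ⟨(volume (ball (0 : EE n) 1)).toReal, ENNReal.toReal_nonneg, fun x R hR => ?_⟩
  refine (measure_mono ball_subset_closedBall).trans (le_of_eq ?_)
  rw [Measure.addHaar_closedBall _ _ hR, ENNReal.ofReal_mul ENNReal.toReal_nonneg,
    ENNReal.ofReal_toReal measure_ball_lt_top.ne, finrank_euclideanSpace_fin, Real.rpow_natCast,
    mul_comm]

theorem mass_of_large {v : EE n → ℝ} {Θ e R1 : ℝ} (hΘ : 0 ≤ Θ) (he : 0 ≤ e)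
    (h : ∀ (x : EE n) (R : ℝ), R1 ≤ R → 1 ≤ R →
      volume (Sh v ∩ ball x R) ≤ ENNReal.ofReal (Θ * R ^ e)) :
    ∃ Θ' : ℝ, 0 ≤ Θ' ∧ Mass v Θ' e := by
  set a := max R1 1 with ha
  have ha1 : 1 ≤ a := le_max_right _ _
  have h1 : 1 ≤ a ^ e := Real.one_le_rpow ha1 he
  refine ⟨Θ * a ^ e, by positivity, fun x R hR => ?_⟩
  have h2 : 1 ≤ R ^ e := Real.one_le_rpow hR he
  rcases le_total a R with h3 | h3
  · refine (h x R ((le_max_left _ _).trans h3) hR).trans (ENNReal.ofReal_le_ofReal ?_)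
    gcongr
    exact le_mul_of_one_le_right hΘ h1
  · refine (measure_mono (inter_subset_inter_right _ (ball_subset_ball h3))).trans
      ((h x a (le_max_left _ _) ha1).trans (ENNReal.ofReal_le_ofReal ?_))
    exact le_mul_of_one_le_right (by positivity) h2

/-- a point that is flat at all small openings forces the planar profile -/
theorem planar_of_flat {v : EE n → ℝ} (hv : Sol v) (hs : Stable v) {x0 : EE n} {κ1 : ℝ}
    (hκ : 0 < κ1) (h : ∀ κ, 0 < κ → κ ≤ κ1 → Flat v κ x0) : Planar v := by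
  have e : dd v = fun z => ⟪∇ (dd v) x0, z⟫ - (⟪∇ (dd v) x0, x0⟫ - dd v x0) := by
    funext z
    have h1 : Tendsto (fun κ : ℝ => κ * ‖z - x0‖ ^ 2) (𝓝[>] 0) (𝓝 (0 * ‖z - x0‖ ^ 2)) :=
      ((continuous_id.mul continuous_const).tendsto 0).mono_left nhdsWithin_le_nhds
    rw [zero_mul] at h1
    have h2 := ge_of_tendsto h1 (by
      filter_upwards [Ioc_mem_nhdsGT hκ] with κ hk using h κ hk.1 hk.2 z)
    have h3 := abs_nonpos_iff.1 h2
    rw [inner_sub_right] at h3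
    linarith
  rcases hv.planar_or with h1 | h1
  · exact h1
  have h2 : v = fun _ => 0 := by
    funext x
    have h3 := hv.lap_dd x
    rw [e, lap_sub_const (f := fun z => ⟪∇ (dd v) x0, z⟫)
      (contDiffAt_const.inner ℝ contDiffAt_id), lap_inner] at h3
    have h4 : (0 : ℝ) < Real.sqrt 2 := by positivity
    have h5 := h1 x
    have h6 : Real.sqrt 2 * tt v x * v x = 0 := by linarith
    exact (mul_eq_zero.1 h6).resolve_left (by positivity)
  exact (not_stable_zero (h2 ▸ hs)).elim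

section main

variable {v : EE 7 → ℝ} {γ s P θ b C0 κ1 c C rs fs : ℝ}

/-- one improvement of the area exponent -/
theorem mass_step (hP : PsiMassStmt) (hA : AreaStmt) (hG : GoodStmt) (hv : Sol v) (hs : Stable v)
    (hE : Expo γ s P θ b) (hC0 : 0 < C0) (hκ1 : 0 < κ1) (hc : 0 < c) (hC : 0 < C) (hrs : 1 ≤ rs)
    (hMI : ∀ f0, fs ≤ f0 → ∃ G J : EE 7 → ℝ, MIData v γ s P θ b C0 κ1 c C rs f0 G J)
    {Θ β : ℝ} (hΘ : 0 ≤ Θ) (hβ0 : 0 ≤ β) (hβ1 : β ≤ 1) (hM : Mass v Θ (6 + β)) :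
    ∃ Θ' : ℝ, 0 ≤ Θ' ∧ Mass v Θ' (6 + β * (1 + P)⁻¹) := by
  have hP0 := hE.P0
  obtain ⟨A, hA0, hψ⟩ := hP 7 v Θ (6 + β) b hv hΘ (by positivity) hE.b0 hM
  have hpos : ∀ x, 0 < psi v x := PsiM.psi_pos' hv
  obtain ⟨A', hA', hAr⟩ := hA 7 v γ s P θ b C0 κ1 c C rs A (6 + β) le_rfl hE hC hrs hA0
    (by linarith) (by linarith) hψ hpos hv.psi_sm.continuous.measurable
  obtain ⟨Ag, κ0, hAg, hκ0, hg⟩ := hG v hv hs
  set τ : ℝ := 1 - β * (1 + P)⁻¹ with hτ
  have hi : (1 + P) * (1 + P)⁻¹ = 1 := mul_inv_cancel₀ (by positivity)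
  have hi0 : 0 < (1 + P)⁻¹ := by positivity
  have hi1 : (1 + P)⁻¹ < 1 := inv_lt_one_of_one_lt₀ (by linarith)
  have hτ0 : 0 < τ := by rw [hτ]; nlinarith
  have hτ1 : τ ≤ 1 := by rw [hτ]; nlinarith
  set C1 := max C0 1 with hC1
  have hC11 : 1 ≤ C1 := le_max_right _ _
  have hC10 : 0 < C1 := one_pos.trans_le hC11
  obtain ⟨R1, hR1⟩ := eventually_atTop.1 (((tendsto_rpow_atTop hτ0).eventually_ge_atTop
    (max fs (max (C1 / κ1) (C1 / κ0)))).and (eventually_ge_atTop rs))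
  refine mass_of_large (Θ := (c * C1 ^ (2 * s))⁻¹ * A' + Ag * C1) (R1 := R1) (by positivity)
    (by positivity) fun x R hR hR' => ?_
  obtain ⟨h1, h2⟩ := hR1 R hR
  have hR0 : 0 < R := one_pos.trans_le hR'
  set f0 := R ^ τ with hf0
  have hf1 : 1 ≤ f0 := Real.one_le_rpow hR' hτ0.le
  have hf0' : 0 < f0 := one_pos.trans_le hf1
  have hfR : f0 ≤ R := by
    calc f0 ≤ R ^ (1 : ℝ) := Real.rpow_le_rpow_of_exponent_le hR' hτ1
      _ = R := Real.rpow_one R
  obtain ⟨G, J, hD⟩ := hMI f0 ((le_max_left _ _).trans h1)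
  have k1 : C1 / f0 ≤ κ1 := by
    have := (div_le_iff₀ hκ1).1 (((le_max_left _ _).trans (le_max_right _ _)).trans h1)
    rw [div_le_iff₀ hf0']; linarith
  have k0 : C1 / f0 ≤ κ0 := by
    have := (div_le_iff₀ hκ0).1 (((le_max_right _ _).trans (le_max_right _ _)).trans h1)
    rw [div_le_iff₀ hf0']; linarith
  have t1 := meas_le_of_lint (B := Sh v ∩ {y | ¬ Flat v (C1 / f0) y} ∩ ball x R)
    ((hv.meas_Sh.inter (hv.meas_bad _)).inter measurableSet_ball) inter_subset_right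
    (m := c * C1 ^ (2 * s)) (by positivity) (fun y hy => by
      have := hD.low (C1 / f0) (by gcongr; exact le_max_left _ _) k1 y hy.1.1 hy.1.2
      rwa [mul_div_cancel₀ _ hf0'.ne'] at this) (hAr f0 G J hf1 hD x R h2 hfR)
  have t2 := hg (C1 / f0) x R (by positivity) k0 (by
    rw [one_div_div]; exact (div_le_self hf0'.le hC11).trans hfR)
  calc _ ≤ volume ((Sh v ∩ {y | ¬ Flat v (C1 / f0) y} ∩ ball x R) ∪
        (Sh v ∩ {y | Flat v (C1 / f0) y} ∩ ball x R)) := measure_mono fun y hy => by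
        by_cases h3 : Flat v (C1 / f0) y
        · exact Or.inr ⟨⟨hy.1, h3⟩, hy.2⟩
        · exact Or.inl ⟨⟨hy.1, h3⟩, hy.2⟩
    _ ≤ _ := (measure_union_le _ _).trans (add_le_add t1 t2)
    _ = _ := by
        rw [← ENNReal.ofReal_add (by positivity) (by positivity)]
        congr 1
        have e1 : f0 ^ P * R ^ (6 + β - P) = R ^ (6 + β * (1 + P)⁻¹) := by
          rw [hf0, ← Real.rpow_mul hR0.le, ← Real.rpow_add hR0]
          congr 1
          rw [hτ]; linear_combination (-β) * hi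
        have e2 : R ^ (7 : ℝ) / f0 = R ^ (6 + β * (1 + P)⁻¹) := by
          rw [hf0, ← Real.rpow_sub hR0]
          congr 1
          rw [hτ]; ring
        calc _ = (c * C1 ^ (2 * s))⁻¹ * A' * (f0 ^ P * R ^ (6 + β - P)) +
              Ag * C1 * (R ^ (7 : ℝ) / f0) := by ring
          _ = _ := by rw [e1, e2]; ring

/-- the second pass: below the critical exponent the zeros are flat at all openings -/
theorem flat_of_mass (hP : PsiMassStmt) (hA : AreaStmt) (hv : Sol v)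
    (hE : Expo γ s P θ b) (hc : 0 < c) (hC : 0 < C) (hrs : 1 ≤ rs)
    (hMI : ∀ f0, fs ≤ f0 → ∃ G J : EE 7 → ℝ, MIData v γ s P θ b C0 κ1 c C rs f0 G J)
    {Θ e : ℝ} (hΘ : 0 ≤ Θ) (he6 : 6 ≤ e) (he7 : e ≤ 7) (he : e < 2 + 2 * γ + 2 * s)
    (hM : Mass v Θ e) {x0 : EE 7} (hx : v x0 = 0) {κ : ℝ} (hκ : 0 < κ) (hκ1 : κ ≤ κ1) :
    Flat v κ x0 := by
  have hγ := hE.g0
  obtain ⟨A, hA0, hψ⟩ := hP 7 v Θ e b hv hΘ (by linarith) hE.b0 hM
  have hpos : ∀ x, 0 < psi v x := PsiM.psi_pos' hv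
  have hW : ∀ x, 0 ≤ psi v x ^ b := fun x => (Real.rpow_pos_of_pos (hpos x) b).le
  obtain ⟨A', hA', hAr⟩ := hA 7 v γ s P θ b C0 κ1 c C rs A e le_rfl hE hC hrs hA0
    he6 he7 hψ hpos hv.psi_sm.continuous.measurable
  have hI := cIn_pos (e := e) (α := 2 * γ) (by linarith [hE.g2])
  have hO := cOut_pos (e := e) (α := P + 2 + 2 * γ) (by linarith [hE.c2])
  set B := {y | ¬ Flat v κ y} ∩ ball x0 1 with hB
  have hBo : IsOpen B := (hv.isClosed_flat κ).isOpen_compl.inter isOpen_ball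
  have key : ∀ ε : ℝ, 0 < ε → volume B ≤ ENNReal.ofReal (1 * (1 * (ε + 0))) := fun ε hε => by
    obtain ⟨f0, hf, hf2⟩ := exists_rpow_le (D := (c * κ ^ (2 * s))⁻¹ * ((rs + 1) ^ (2 * γ + 2) *
      (C * ((cIn e (2 * γ) + cOut e (P + 2 + 2 * γ)) * A)))) (η := e - 2 - 2 * γ - 2 * s)
      (by linarith) hε (max (max fs rs) (C0 / κ))
    have f1 : rs ≤ f0 := ((le_max_right _ _).trans (le_max_left _ _)).trans hf
    have f2 : 1 ≤ f0 := hrs.trans f1
    have f3 : 0 < f0 := one_pos.trans_le f2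
    obtain ⟨G, J, hD⟩ := hMI f0 (((le_max_left _ _).trans (le_max_left _ _)).trans hf)
    have k1 : C0 / f0 ≤ κ := by
      have := (div_le_iff₀ hκ).1 ((le_max_right _ _).trans hf)
      rw [div_le_iff₀ f3]; linarith
    have t1 := hD.inf le_rfl hγ hE.g2 hC hrs x0 (r0 := rs) (r1 := 1) (a := f0) (e := e - P)
      (M := f0 ^ (-2 : ℝ) * (cIn e (2 * γ) * A * f0 ^ (e - 2 * γ)) +
        f0 ^ P * (cOut e (P + 2 + 2 * γ) * A * f0 ^ (e - (P + 2 + 2 * γ)))) le_rfl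
      one_pos f2 (by linarith [hE.c2])
      ⟨A' * f0 ^ P, by positivity, fun r hr => hAr f0 G J f2 hD x0 r (f1.trans hr) hr⟩
      (by positivity) fun R hR => by
        have := lint_split (T := univ) (fun y _ => by
          rcases lt_or_ge (rh Finset.univ x0 rs y) f0 with h3 | h3
          · exact Or.inl ⟨le_rh _ _ y, h3⟩
          · exact Or.inr h3) (by positivity) (by positivity)
          (lo_in (P := P) x0 hW hγ (by linarith [hE.g2]) hA0 f3 hR hrs (hψ x0))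
          (lo_out (r0 := rs) x0 hW hγ hE.P0 (by linarith [hE.c2]) hA0 f3 hR f2 (hψ x0))
        rwa [Measure.restrict_univ] at this
    have t2 := meas_le_of_lint (B := B) hBo.measurableSet inter_subset_right
      (m := c * (f0 * κ) ^ (2 * s)) (by positivity)
      (fun y hy => hD.low κ k1 hκ1 y (PsiM.ball_sub hv hx hy.2) hy.1) t1
    refine t2.trans (ENNReal.ofReal_le_ofReal ?_)
    rw [one_mul, one_mul, add_zero]
    refine le_trans (le_of_eq ?_) hf2
    have e1 : f0 ^ (-2 : ℝ) * f0 ^ (e - 2 * γ) = f0 ^ (e - 2 - 2 * γ) := by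
      rw [← Real.rpow_add f3]; congr 1; ring
    have e2 : f0 ^ P * f0 ^ (e - (P + 2 + 2 * γ)) = f0 ^ (e - 2 - 2 * γ) := by
      rw [← Real.rpow_add f3]; congr 1; ring
    have e3 : f0 ^ (-2 : ℝ) * (cIn e (2 * γ) * A * f0 ^ (e - 2 * γ)) +
        f0 ^ P * (cOut e (P + 2 + 2 * γ) * A * f0 ^ (e - (P + 2 + 2 * γ))) =
        (cIn e (2 * γ) + cOut e (P + 2 + 2 * γ)) * A * f0 ^ (e - 2 - 2 * γ) := by
      calc _ = cIn e (2 * γ) * A * (f0 ^ (-2 : ℝ) * f0 ^ (e - 2 * γ)) +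
          cOut e (P + 2 + 2 * γ) * A * (f0 ^ P * f0 ^ (e - (P + 2 + 2 * γ))) := by ring
        _ = _ := by rw [e1, e2]; ring
    rw [e3, Real.rpow_sub f3 _ (2 * s), Real.mul_rpow f3.le hκ.le]
    have p1 : 0 < f0 ^ (2 * s) := by positivity
    have p2 : 0 < κ ^ (2 * s) := by positivity
    field_simp
  have h0 : volume B = 0 := by simpa using le_ofReal_of_forall key
  by_contra hn
  exact (hBo.measure_pos volume ⟨x0, hn, mem_ball_self one_pos⟩).ne' h0

end main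

theorem seven (hMI : MIStmt) (hP : PsiMassStmt) (hA : AreaStmt) (hG : GoodStmt) : SevenStmt := by
  intro v hv hs
  by_contra hn
  obtain ⟨γ, s, P, θ, b, hE, hMI⟩ := hMI
  obtain ⟨C0, κ1, c, C, rs, fs, hC0, hκ1, hc, hC, hrs, -, hMI⟩ := hMI 7 v (Or.inl rfl) hv hs hn
  have hP0 := hE.P0
  have hi0 : 0 < (1 + P)⁻¹ := by positivity
  have hi1 : (1 + P)⁻¹ < 1 := inv_lt_one_of_one_lt₀ (by linarith)
  have step : ∀ j : ℕ, ∃ Θ : ℝ, 0 ≤ Θ ∧ Mass v Θ (6 + (1 + P)⁻¹ ^ j) := by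
    intro j
    induction j with
    | zero =>
      obtain ⟨Θ, hΘ, h⟩ := vol_ball_le 7
      refine ⟨Θ, hΘ, fun x R hR => (measure_mono inter_subset_right).trans ?_⟩
      have := h x R (zero_le_one.trans hR)
      rwa [show ((7 : ℕ) : ℝ) = 6 + (1 + P)⁻¹ ^ 0 by norm_num] at this
    | succ j ih =>
      obtain ⟨Θ, hΘ, h⟩ := ih
      rw [pow_succ]
      exact mass_step hP hA hG hv hs hE hC0 hκ1 hc hC hrs hMI hΘ (by positivity)
        (pow_le_one₀ hi0.le hi1.le) h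
  obtain ⟨j, hj⟩ := exists_pow_lt_of_lt_one (x := 2 * (s + γ - 2)) (by linarith [hE.c1]) hi1
  obtain ⟨Θ, hΘ, hM⟩ := step j
  obtain ⟨x0, hx⟩ := PsiM.zero_ex hv
  have p0 : 0 < (1 + P)⁻¹ ^ j := by positivity
  have p1 : (1 + P)⁻¹ ^ j ≤ 1 := pow_le_one₀ hi0.le hi1.le
  exact hn (planar_of_flat hv hs hκ1 fun κ h1 h2 => flat_of_mass hP hA hv hE hc hC hrs hMI hΘ
    (by linarith) (by linarith) (by linarith) hM hx h1 h2)

/-- the rigidity theorem in `ℝ⁷` from the master inequality alone -/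
theorem seven_of_mi (hMI : MIStmt) : SevenStmt := seven hMI psiMass area (good flatN)

end

end Crest.Agent.N067
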