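import Crest.Agent.N067.K.Lay

/-!
# Row 67, block K (helper53): mass of vertical tubes in `ℝ⁸`
-/

set_option autoImplicit false

open MeasureTheory Topology Filter Set Metric
open scoped ENNReal

namespace Crest.Agent.N067

open Crest.Agent.R077

noncomputable section

/-- the seven horizontal coordinates -/
def I7 : Finset (Fin 8) := Finset.univ.erase (Fin.last 7)

theorem card_I7 : I7.card = 7 := by simp [I7]

theorem norm_sq_I7 (x c : EE 8) :
    ‖x - c‖ ^ 2 = ∑ i ∈ I7, (x i - c i) ^ 2 + (x (Fin.last 7) - c (Fin.last 7)) ^ 2 := by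
  rw [EuclideanSpace.real_norm_sq_eq, I7,
    ← Finset.sum_erase_add _ _ (Finset.mem_univ (Fin.last 7))]
  simp only [PiLp.sub_apply]

theorem sum_I7_shift (x c : EE 8) (h : ℝ) :
    ∑ i ∈ I7, (x i - (c + h • ev (Fin.last 7)) i) ^ 2 = ∑ i ∈ I7, (x i - c i) ^ 2 := by
  refine Finset.sum_congr rfl fun i hi => ?_
  have : i ≠ 7 := (Finset.mem_erase.1 hi).1
  simp [ev, this]

theorem last_shift (c : EE 8) (h : ℝ) :
    (c + h • ev (Fin.last 7)) (Fin.last 7) = c (Fin.last 7) + h := by simp [ev]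

theorem sum_lt_of_rh_lt {n : ℕ} {I : Finset (Fin n)} {c x : EE n} {r0 s : ℝ} (h : rh I c r0 x < s) :
    ∑ i ∈ I, (x i - c i) ^ 2 < s ^ 2 := by
  have h0 : 0 ≤ ∑ i ∈ I, (x i - c i) ^ 2 := Finset.sum_nonneg fun _ _ => sq_nonneg _
  have h1 := (Real.sqrt_lt' ((Real.sqrt_nonneg _).trans_lt h)).1 h
  nlinarith [sq_nonneg r0]

/-- a tube of radius `s` and length `L` is covered by `5 L / s` balls of radius `2 s` -/
theorem tube_ball {F : EE 8 → ℝ≥0∞} {M s L r0 : ℝ} (c : EE 8) (hs : 0 < s) (hL : s ≤ L) (hM : 0 ≤ M)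
    (h : ∀ y, ∫⁻ x in ball y (2 * s), F x ≤ ENNReal.ofReal M) :
    ∫⁻ x in ball c L ∩ {x | rh I7 c r0 x < s}, F x ≤ ENNReal.ofReal (5 * M / s * L) := by
  set N : ℕ := ⌈L / s⌉₊ with hN
  have hLs : 1 ≤ L / s := (one_le_div hs).2 hL
  have hN1 : L / s ≤ N := Nat.le_ceil _
  have hN2 : (N : ℝ) < L / s + 1 := Nat.ceil_lt_add_one (by positivity)
  have hsub : ball c L ∩ {x | rh I7 c r0 x < s} ⊆
      ⋃ j ∈ Finset.range (2 * N + 1), ball (c + (((j : ℝ) - N) * s) • ev (Fin.last 7)) (2 * s) := by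
    rintro x ⟨h1, h2⟩
    have h3 := sum_lt_of_rh_lt h2
    have h4 : ‖x - c‖ < L := by simpa [dist_eq_norm] using h1
    set a := x (Fin.last 7) - c (Fin.last 7) with ha
    have h5 : |a| < L := by
      have h6 := norm_sq_I7 x c
      have h7 : 0 ≤ ∑ i ∈ I7, (x i - c i) ^ 2 := Finset.sum_nonneg fun _ _ => sq_nonneg _
      refine abs_lt_of_sq_lt_sq ?_ (by linarith)
      nlinarith [norm_nonneg (x - c)]
    have h8 : |a / s| < N := by
      rw [abs_div, abs_of_pos hs]
      exact (div_lt_div_of_pos_right h5 hs).trans_le hN1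
    have h9 := abs_lt.1 h8
    have h10 : 0 ≤ a / s + N := by linarith
    refine mem_iUnion₂.2 ⟨⌊a / s + N⌋₊, Finset.mem_range.2 ?_, ?_⟩
    · rw [Nat.floor_lt h10]; push_cast; linarith
    · have h11 := Nat.floor_le h10
      have h12 := Nat.lt_floor_add_one (a / s + N)
      set j : ℝ := (⌊a / s + N⌋₊ : ℝ)
      have e : a = a / s * s := by field_simp
      have h13 : 0 ≤ a - (j - N) * s := by rw [e]; nlinarith
      have h14 : a - (j - N) * s ≤ s := by rw [e]; nlinarith
      rw [mem_ball, dist_eq_norm]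
      refine lt_of_pow_lt_pow_left₀ 2 (by positivity) ?_
      rw [norm_sq_I7, sum_I7_shift, last_shift]
      have : x (Fin.last 7) - (c (Fin.last 7) + (j - N) * s) = a - (j - N) * s := by rw [ha]; ring
      rw [this]
      nlinarith
  calc _ ≤ _ := lintegral_mono_set hsub
    _ ≤ ∑ j ∈ Finset.range (2 * N + 1),
          ∫⁻ x in ball (c + (((j : ℝ) - N) * s) • ev (Fin.last 7)) (2 * s), F x := by
        rw [← Finset.set_biUnion_coe, biUnion_eq_iUnion]
        refine (lintegral_iUnion_le _ _).trans (le_of_eq ?_)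
        exact Finset.tsum_subtype' (Finset.range (2 * N + 1)) fun j : ℕ =>
          ∫⁻ x in ball (c + (((j : ℝ) - N) * s) • ev (Fin.last 7)) (2 * s), F x
    _ ≤ ∑ _j ∈ Finset.range (2 * N + 1), ENNReal.ofReal M := Finset.sum_le_sum fun j _ => h _
    _ = ENNReal.ofReal (((2 * N + 1 : ℕ) : ℝ) * M) := by
        rw [Finset.sum_const, Finset.card_range, nsmul_eq_mul,
          ENNReal.ofReal_mul (Nat.cast_nonneg _), ENNReal.ofReal_natCast]
    _ ≤ _ := by
        refine ENNReal.ofReal_le_ofReal ?_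
        have : 5 * M / s * L = 5 * (L / s) * M := by ring
        rw [this]
        gcongr
        push_cast; linarith

/-- the constant of `tube_Om` -/
def cT7 (e : ℝ) : ℝ := cOm 1 * (5 * 2 ^ e) + cOm e

theorem cT7_pos {e : ℝ} (he : e < 20) : 0 < cT7 e := by
  have h1 := cOm_pos he
  have h2 := cOm_pos (e := 1) (by norm_num)
  unfold cT7; positivity

/-- mass of a tube against the majorant `Om` -/
theorem tube_Om {F : EE 8 → ℝ≥0∞} {A e a s R r0 : ℝ} (c : EE 8) (ha : 0 < a) (hs : a ≤ s)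
    (hR : a ≤ R) (hA : 0 ≤ A) (he1 : 1 ≤ e) (he : e < 20)
    (h : ∀ y r, a ≤ r → ∫⁻ x in ball y r, F x ≤ ENNReal.ofReal (A * r ^ e)) :
    ∫⁻ x in {x | rh I7 c r0 x < s}, F x * ENNReal.ofReal (Om c R x) ≤
      ENNReal.ofReal (cT7 e * A * R * s ^ (e - 1)) := by
  have hs0 : 0 < s := ha.trans_le hs
  have hR0 : 0 < R := ha.trans_le hR
  have h1 := cOm_pos he
  have h2 := cOm_pos (e := 1) (by norm_num)
  rcases le_total s R with h3 | h3
  · have h4 := lay_Om (μ := volume.restrict {x | rh I7 c r0 x < s}) (F := F) c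
      (A := 5 * (A * (2 * s) ^ e) / s) (e := 1) hR0 (by positivity) (by norm_num) fun L hL => by
        rw [Measure.restrict_restrict measurableSet_ball, Real.rpow_one]
        exact tube_ball c hs0 (h3.trans hL) (by positivity) fun y => h y _ (by linarith)
    refine h4.trans (ENNReal.ofReal_le_ofReal ?_)
    rw [Real.rpow_one, Real.mul_rpow zero_le_two hs0.le, Real.rpow_sub_one hs0.ne']
    unfold cT7
    have : cOm 1 * (5 * (A * (2 ^ e * s ^ e)) / s) * R = cOm 1 * (5 * 2 ^ e) * A * R * (s ^ e / s) := by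
      ring
    rw [this]
    gcongr
    linarith
  · have h4 := lay_Om (μ := volume) (F := F) c hR0 hA he fun L hL => h c L (hR.trans hL)
    refine (setLIntegral_le_lintegral _ _).trans (h4.trans (ENNReal.ofReal_le_ofReal ?_))
    have h5 : R ^ e = R * R ^ (e - 1) := by rw [Real.rpow_sub_one hR0.ne']; field_simp
    have h6 : R ^ (e - 1) ≤ s ^ (e - 1) := Real.rpow_le_rpow hR0.le h3 (by linarith)
    rw [h5, ← mul_assoc]
    unfold cT7
    gcongr
    have : 0 < cOm 1 * (5 * 2 ^ e) := by positivity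
    linarith

end

end Crest.Agent.N067
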