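import Crest.Agent.N067.K.Tub0
import Crest.Agent.N067.A.Modica

/-!
# Row 67, block K (helper53): the master inequality in a vertical tube
-/

set_option autoImplicit false

open MeasureTheory Topology Filter Set Metric InnerProductSpace
open scoped ENNReal RealInnerProductSpace Gradient

namespace Crest.Agent.N067

open Crest.Agent.R077

noncomputable section

theorem rpow_add_nat' {x : ℝ} (hx : 0 < x) {a b : ℝ} (m : ℕ) (h : a + b = m) :
    x ^ a * x ^ b = x ^ m := by rw [← Real.rpow_add hx, h, Real.rpow_natCast]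

theorem rpow_split {x : ℝ} (hx : 0 < x) {a b g : ℝ} (m : ℕ) (h : a + b = m + g) :
    x ^ a * x ^ b = x ^ m * x ^ g := by
  rw [← Real.rpow_add hx, h, Real.rpow_add hx, Real.rpow_natCast]

theorem ofReal3 {a b c : ℝ} (ha : 0 ≤ a) (hc : 0 ≤ c) :
    ENNReal.ofReal (a * b * c) = ENNReal.ofReal a * ENNReal.ofReal c * ENNReal.ofReal b := by
  rw [← ENNReal.ofReal_mul ha, ← ENNReal.ofReal_mul (mul_nonneg ha hc)]; congr 1; ring

theorem lint_const_le {X : Type*} [MeasurableSpace X] {μ : Measure X} {S : Set X}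
    (hS : MeasurableSet S) {f g : X → ℝ≥0∞} {m M : ℝ} (hm : 0 ≤ m)
    (h : ∀ x ∈ S, f x ≤ ENNReal.ofReal m * g x) (hg : ∫⁻ x in S, g x ∂μ ≤ ENNReal.ofReal M) :
    ∫⁻ x in S, f x ∂μ ≤ ENNReal.ofReal (m * M) := by
  calc _ ≤ ∫⁻ x in S, ENNReal.ofReal m * g x ∂μ := setLIntegral_mono' hS h
    _ = _ := lintegral_const_mul' _ _ ENNReal.ofReal_ne_top
    _ ≤ _ := by rw [ENNReal.ofReal_mul hm]; gcongr

/-- the outer term -/
theorem tube_T1 {G : EE 8 → ℝ} {γ P A f0 r R : ℝ} (c : EE 8) (hG : ∀ x, 0 ≤ G x) (hγ : 0 < γ)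
    (hP0 : 0 < P) (hP : P ≤ 5) (h2 : 5 < P + 2 * γ) (hA : 0 ≤ A) (hr : 0 < r) (hf : r ≤ f0)
    (hR : f0 ≤ R)
    (h : ∀ y s, f0 ≤ s → ∫⁻ x in ball y s, ENNReal.ofReal (G x) ≤
      ENNReal.ofReal (A * f0 ^ P * s ^ (7 - P))) :
    ∫⁻ x, ENNReal.ofReal (R ^ (-2 : ℝ) * (G x * rh I7 c r x ^ (-(2 * γ)) * Om c R x)) ≤
      ENNReal.ofReal (cT7 (7 - P) * A *
        (r ^ (-(2 * γ)) * f0 ^ 6 / R + (cIn (6 - P) (5 - P) + 1) * (f0 ^ 5 * f0 ^ (-(2 * γ))))) := by
  have hf0 : 0 < f0 := hr.trans_le hf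
  have hR0 : 0 < R := hf0.trans_le hR
  have hT := cT7_pos (e := 7 - P) (by linarith)
  have hI := cIn_pos (e := 6 - P) (α := 5 - P) (by linarith)
  have hm := measurable_rh I7 c r
  set F : EE 8 → ℝ≥0∞ := fun x => ENNReal.ofReal (G x) * ENNReal.ofReal (Om c R x) with hF
  have ht : ∀ s, f0 ≤ s → ∫⁻ x in {x | rh I7 c r x < s}, F x ≤
      ENNReal.ofReal (cT7 (7 - P) * (A * f0 ^ P) * R * s ^ (6 - P)) := fun s hs => by
    have := tube_Om (F := fun x => ENNReal.ofReal (G x)) (r0 := r) c hf0 hs hR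
      (A := A * f0 ^ P) (e := 7 - P) (by positivity) (by linarith) (by linarith) h
    rwa [show 7 - P - 1 = 6 - P by ring] at this
  have hu : ∫⁻ x, F x ≤ ENNReal.ofReal (cT7 (7 - P) * (A * f0 ^ P) * R * R ^ (6 - P)) := by
    refine (lay_Om (μ := volume) (F := fun x => ENNReal.ofReal (G x)) c (A := A * f0 ^ P)
      (e := 7 - P) hR0 (by positivity) (by linarith) fun s hs => h c s (hR.trans hs)).trans
      (ENNReal.ofReal_le_ofReal ?_)
    have e1 : R ^ (7 - P) = R * R ^ (6 - P) := by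
      rw [show 7 - P = 1 + (6 - P) by ring, Real.rpow_add hR0, Real.rpow_one]
    rw [e1, ← mul_assoc]
    have h1 := cOm_pos (e := 1) (by norm_num)
    gcongr
    unfold cT7
    have : 0 < cOm 1 * (5 * 2 ^ (7 - P)) := by positivity
    linarith
  have a1 := lay_piece (μ := volume) (F := F) (g := fun x => rh I7 c r x ^ (-(2 * γ)))
    (S := {x | rh I7 c r x < f0}) (m := r ^ (-(2 * γ))) (measurableSet_lt hm measurable_const)
    subset_rfl (by positivity)
    (fun x _ => Real.rpow_le_rpow_of_nonpos hr (le_rh _ _ x) (by linarith)) (ht f0 le_rfl)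
  have a2 := lay_all (μ := volume) (F := F) hm (a := f0) (S := R) (α := 5 - P) hf0 hR0
    (by positivity) (by linarith) (by linarith) (fun s hs _ => ht s hs) hu
  have a3 := lint_const_le (μ := volume) (S := {x | f0 ≤ rh I7 c r x})
    (measurableSet_le measurable_const hm)
    (f := fun x => F x * ENNReal.ofReal (rh I7 c r x ^ (-(2 * γ)))) (m := f0 ^ (5 - P - 2 * γ))
    (by positivity) (fun x hx => by
      have hx0 : 0 < rh I7 c r x := hf0.trans_le hx
      rw [mul_left_comm, ← ENNReal.ofReal_mul (by positivity)]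
      gcongr
      rw [show -(2 * γ) = (5 - P - 2 * γ) + -(5 - P) by ring, Real.rpow_add hx0]
      gcongr ?_ * _
      exact Real.rpow_le_rpow_of_nonpos hf0 hx (by linarith)) a2
  have a4 := lint_split (T := univ) (fun x _ => lt_or_ge (rh I7 c r x) f0) (by positivity)
    (by positivity) a1 a3
  have a5 := lint_const_le (μ := volume) (S := univ) MeasurableSet.univ
    (f := fun x => ENNReal.ofReal (R ^ (-2 : ℝ) * (G x * rh I7 c r x ^ (-(2 * γ)) * Om c R x)))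
    (m := R ^ (-2 : ℝ)) (by positivity) (fun x _ => by
      rw [ENNReal.ofReal_mul (by positivity), ofReal3 (hG x) (Om_pos c hR0 x).le]) a4
  rw [Measure.restrict_univ] at a5
  refine a5.trans (le_of_eq ?_)
  congr 1
  have e1 : f0 ^ P * f0 ^ (6 - P) = f0 ^ 6 := rpow_add_nat' hf0 6 (by push_cast; ring)
  have e2 : f0 ^ (5 - P - 2 * γ) * f0 ^ P = f0 ^ 5 * f0 ^ (-(2 * γ)) :=
    rpow_split hf0 5 (by push_cast; ring)
  have e3 : R ^ (-2 : ℝ) = (R ^ 2)⁻¹ := by
    rw [Real.rpow_neg hR0.le, Real.rpow_two]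
  rw [show 6 - P - (5 - P) = (1 : ℝ) by ring, Real.rpow_one, e3, ← e1, ← e2]
  field_simp

/-- the left-over term -/
theorem tube_T2 {W : EE 8 → ℝ} {γ P A f0 r R : ℝ} (c : EE 8) (hW : ∀ x, 0 ≤ W x) (hγ : 0 < γ)
    (hγ2 : γ < 2) (hP0 : 0 < P) (h2 : 5 < P + 2 * γ) (hA : 0 ≤ A) (hr : 1 ≤ r) (hf : r ≤ f0)
    (hR : f0 ≤ R)
    (h : ∀ y s, 1 ≤ s → ∫⁻ x in ball y s, ENNReal.ofReal (W x) ≤ ENNReal.ofReal (A * s ^ (7 : ℝ))) :
    ∫⁻ x, ENNReal.ofReal (min (f0 ^ (-2 : ℝ)) (f0 ^ P * rh I7 c r x ^ (-P - 2)) *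
        (W x * rh I7 c r x ^ (-(2 * γ)) * Om c R x)) ≤
      ENNReal.ofReal ((cIn 6 (2 * γ) + cOut 6 (P + 2 + 2 * γ)) * (cT7 7 * A) * R *
        (f0 ^ 4 * f0 ^ (-(2 * γ)))) := by
  have hr0 : 0 < r := one_pos.trans_le hr
  have hf0 : 0 < f0 := hr0.trans_le hf
  have hR0 : 0 < R := hf0.trans_le hR
  have hT := cT7_pos (e := 7) (by norm_num)
  have hI := cIn_pos (e := 6) (α := 2 * γ) (by linarith)
  have hO := cOut_pos (e := 6) (α := P + 2 + 2 * γ) (by linarith)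
  have hm := measurable_rh I7 c r
  set F : EE 8 → ℝ≥0∞ := fun x => ENNReal.ofReal (W x) * ENNReal.ofReal (Om c R x) with hF
  have ht : ∀ s, 1 ≤ s → ∫⁻ x in {x | rh I7 c r x < s}, F x ≤
      ENNReal.ofReal (cT7 7 * A * R * s ^ (6 : ℝ)) := fun s hs => by
    have := tube_Om (F := fun x => ENNReal.ofReal (W x)) (r0 := r) c one_pos hs
      ((hr.trans hf).trans hR) hA (e := 7) (by norm_num) (by norm_num) h
    rwa [show (7 : ℝ) - 1 = 6 by norm_num] at this
  have a1 := lay_in (μ := volume) (F := F) hm (a := r) (S := f0) (α := 2 * γ) hr0 hf0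
    (by positivity) (by positivity) (by linarith) fun s hs _ => ht s (hr.trans hs)
  have a2 := lay_out (μ := volume) (F := F) hm (a := f0) (α := P + 2 + 2 * γ) hf0
    (by positivity) (by positivity) (by linarith) fun s hs => ht s ((hr.trans hf).trans hs)
  set f : EE 8 → ℝ≥0∞ := fun x => ENNReal.ofReal (min (f0 ^ (-2 : ℝ))
    (f0 ^ P * rh I7 c r x ^ (-P - 2)) * (W x * rh I7 c r x ^ (-(2 * γ)) * Om c R x)) with hf'
  have hx0 : ∀ x, 0 < rh I7 c r x := fun x => hr0.trans_le (le_rh _ _ x)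
  have b1 := lint_const_le (μ := volume) ((measurableSet_le measurable_const hm).inter
    (measurableSet_lt hm measurable_const)) (f := f) (m := f0 ^ (-2 : ℝ)) (by positivity)
    (fun x _ => by
      have := hx0 x
      have := hW x
      have := Om_pos c hR0 x
      rw [← ofReal3 (hW x) (Om_pos c hR0 x).le, ← ENNReal.ofReal_mul (by positivity)]
      exact ENNReal.ofReal_le_ofReal (mul_le_mul_of_nonneg_right (min_le_left _ _) (by positivity)))
    a1
  have b2 := lint_const_le (μ := volume) (measurableSet_le measurable_const hm) (f := f)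
    (m := f0 ^ P) (by positivity)
    (fun x _ => by
      have h3 := hx0 x
      have := hW x
      have := Om_pos c hR0 x
      rw [← ofReal3 (hW x) (Om_pos c hR0 x).le, ← ENNReal.ofReal_mul (by positivity)]
      refine ENNReal.ofReal_le_ofReal ((mul_le_mul_of_nonneg_right (min_le_right _ _)
        (by positivity)).trans (le_of_eq ?_))
      rw [show -(P + 2 + 2 * γ) = (-P - 2) + -(2 * γ) by ring, Real.rpow_add h3]; ring)
    a2
  have a4 := lint_split (T := univ) (fun x _ => by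
    rcases lt_or_ge (rh I7 c r x) f0 with h3 | h3
    · exact Or.inl ⟨le_rh _ _ x, h3⟩
    · exact Or.inr h3) (by positivity) (by positivity) b1 b2
  rw [Measure.restrict_univ] at a4
  refine a4.trans (le_of_eq ?_)
  congr 1
  have e1 : f0 ^ (-2 : ℝ) * f0 ^ (6 - 2 * γ) = f0 ^ 4 * f0 ^ (-(2 * γ)) :=
    rpow_split hf0 4 (by push_cast; ring)
  have e2 : f0 ^ P * f0 ^ (6 - (P + 2 + 2 * γ)) = f0 ^ 4 * f0 ^ (-(2 * γ)) :=
    rpow_split hf0 4 (by push_cast; ring)
  calc _ = cIn 6 (2 * γ) * (cT7 7 * A * R) * (f0 ^ (-2 : ℝ) * f0 ^ (6 - 2 * γ)) +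
        cOut 6 (P + 2 + 2 * γ) * (cT7 7 * A * R) * (f0 ^ P * f0 ^ (6 - (P + 2 + 2 * γ))) := by ring
    _ = _ := by rw [e1, e2]; ring

variable {n : ℕ}

theorem Flat.mono {v : EE n → ℝ} {κ κ' : ℝ} {x : EE n} (h : Flat v κ x) (hκ : κ ≤ κ') :
    Flat v κ' x := fun z => (h z).trans (by gcongr)

theorem Sol.cont_grad_dd {v : EE n → ℝ} (h : Sol v) : Continuous (∇ (dd v)) :=
  (InnerProductSpace.toDual ℝ (EE n)).symm.continuous.comp
    ((h.dd_cd 1).continuous_fderiv (by simp))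

theorem Sol.isClosed_flat {v : EE n → ℝ} (h : Sol v) (κ : ℝ) : IsClosed {x | Flat v κ x} := by
  have h1 := h.dd_sm.continuous
  have h2 := h.cont_grad_dd
  simp only [Flat, setOf_forall]
  exact isClosed_iInter fun z => isClosed_le (by fun_prop) (by fun_prop)

theorem Sol.meas_Sh {v : EE n → ℝ} (h : Sol v) : MeasurableSet (Sh v) :=
  (isClosed_le h.dd_sm.continuous.abs continuous_const).measurableSet

theorem Sol.meas_bad {v : EE n → ℝ} (h : Sol v) (κ : ℝ) : MeasurableSet {x | ¬ Flat v κ x} :=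
  (h.isClosed_flat κ).measurableSet.compl

theorem meas_le_of_lint {X : Type*} [MeasurableSpace X] {μ : Measure X} {B T : Set X}
    (hB : MeasurableSet B) (hBT : B ⊆ T) {f : X → ℝ} {m M : ℝ} (hm : 0 < m)
    (hf : ∀ x ∈ B, m ≤ f x) (h : ∫⁻ x in T, ENNReal.ofReal (f x) ∂μ ≤ ENNReal.ofReal M) :
    μ B ≤ ENNReal.ofReal (m⁻¹ * M) := by
  rw [← setLIntegral_one]
  refine lint_const_le hB (g := fun x => ENNReal.ofReal (f x)) (by positivity) (fun x hx => ?_)
    ((lintegral_mono_set hBT).trans h)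
  rw [← ENNReal.ofReal_mul (by positivity), ← ENNReal.ofReal_one]
  refine ENNReal.ofReal_le_ofReal ?_
  rw [inv_mul_eq_div, one_le_div hm]
  exact hf x hx

theorem exists_rpow_le {D η δ : ℝ} (hη : η < 0) (hδ : 0 < δ) (a : ℝ) :
    ∃ F : ℝ, a ≤ F ∧ D * F ^ η ≤ δ := by
  have h1 : Tendsto (fun F : ℝ => D * F ^ η) atTop (𝓝 (D * 0)) := by
    refine Tendsto.const_mul D ?_
    simpa using tendsto_rpow_neg_atTop (neg_pos.2 hη)
  rw [mul_zero] at h1
  exact ((eventually_ge_atTop a).and (h1.eventually (ge_mem_nhds hδ))).exists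

/-- **the tube estimate**: few shallow points of a long thin tube are not flat -/
theorem tubeBad (hMI : MIStmt) (hP : PsiMassStmt) (hA : AreaStmt) {u : EE 8 → ℝ} {Θ : ℝ}
    (hu : Sol u) (hs : Stable u) (hn : ¬ Planar u) (hΘ : 0 ≤ Θ) (hM : Mass u Θ 7) {ε δ : ℝ}
    (hε : 0 < ε) (hδ : 0 < δ) : ∃ K0 r1 : ℝ, 1 ≤ K0 ∧ 1 ≤ r1 ∧ ∀ (K r : ℝ) (x0 : EE 8), K0 ≤ K →
      r1 ≤ r → volume (Sh u ∩ {x | ¬ Flat u (ε / r) x} ∩ {x | rh I7 x0 r x < 4 * r} ∩
        ball x0 (K * r)) ≤ ENNReal.ofReal (δ * K * r ^ 7) := by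
  obtain ⟨γ, s, P, θ, b, hE, hMI⟩ := hMI
  obtain ⟨C0, κ1, c, C, rs, fs, hC0, hκ1, hc, hC, hrs, hfs, hMI⟩ := hMI 8 u (Or.inr rfl) hu hs hn
  obtain ⟨A, hA0, hψ⟩ := hP 8 u Θ 7 b hu hΘ (by norm_num) hE.b0 hM
  have hpos : ∀ x, 0 < psi u x := fun x => one_sub_sq_pos (hu.lt x)
  obtain ⟨A', hA', hAr⟩ := hA 8 u γ s P θ b C0 κ1 c C rs A 7 (by norm_num) hE hC hrs hA0
    (by norm_num) le_rfl hψ hpos hu.psi_sm.continuous.measurable
  have hγ := hE.g0
  have hT := cT7_pos (e := 7 - P) (by linarith [hE.P0])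
  have hT7 := cT7_pos (e := 7) (by norm_num)
  have hI := cIn_pos (e := 6 - P) (α := 5 - P) (by linarith)
  have hI' := cIn_pos (e := 6) (α := 2 * γ) (by linarith [hE.g2])
  have hO := cOut_pos (e := 6) (α := P + 2 + 2 * γ) (by linarith [hE.c2])
  set m0 : ℝ := c * ε ^ (2 * s) * 4 ^ (-(2 * γ) - 2) with hm0
  have hm0' : 0 < m0 := by positivity
  set D2 : ℝ := m0⁻¹ * C * ((cIn 6 (2 * γ) + cOut 6 (P + 2 + 2 * γ)) * (cT7 7 * A)) with hD2
  obtain ⟨F, hF, hF2⟩ := exists_rpow_le (D := D2) (η := 4 - 2 * γ - 2 * s) (δ := δ / 2)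
    (by linarith [hE.c1]) (by positivity) (max 1 (C0 / ε))
  have hF1 : 1 ≤ F := (le_max_left _ _).trans hF
  have hF0 : 0 < F := one_pos.trans_le hF1
  set D1 : ℝ := m0⁻¹ * (F ^ (2 * s))⁻¹ * C * (cT7 (7 - P) * A' *
    (F ^ 6 + (cIn (6 - P) (5 - P) + 1) * (F ^ 5 * F ^ (-(2 * γ))))) with hD1
  refine ⟨max F (2 * D1 / δ), max (max rs fs) (ε / κ1), hF1.trans (le_max_left _ _),
    hrs.trans ((le_max_left _ _).trans (le_max_left _ _)), fun K r x0 hK hr => ?_⟩
  have hK1 : F ≤ K := (le_max_left _ _).trans hK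
  have hK2 : D1 ≤ δ / 2 * K := by
    have := (div_le_iff₀ hδ).1 ((le_max_right _ _).trans hK); linarith
  have hr1 : rs ≤ r := ((le_max_left _ _).trans (le_max_left _ _)).trans hr
  have hr2 : fs ≤ r := ((le_max_right _ _).trans (le_max_left _ _)).trans hr
  have hr3 : 1 ≤ r := hrs.trans hr1
  have hr0 : 0 < r := one_pos.trans_le hr3
  have hr4 : ε / r ≤ κ1 := by
    have := (div_le_iff₀ hκ1).1 ((le_max_right _ _).trans hr)
    rw [div_le_iff₀ hr0]; linarith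
  have hf : r ≤ F * r := le_mul_of_one_le_left hr0.le hF1
  have hR : F * r ≤ K * r := by gcongr
  have hK0 : 0 < K := hF0.trans_le hK1
  obtain ⟨G, J, hD⟩ := hMI (F * r) (hr2.trans hf)
  have t1 := tube_T1 x0 hD.nG hγ hE.P0 hE.P5 hE.c2 hA' hr0 hf hR fun y s hs =>
    hAr (F * r) G J (hr3.trans hf) hD y s ((hr1.trans hf).trans hs) hs
  have t2 := tube_T2 (W := fun x => psi u x ^ b) x0 (fun x => (Real.rpow_pos_of_pos (hpos x) b).le)
    hγ hE.g2 hE.P0 hE.c2 hA0 hr3 hf hR hψ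
  have t3 := (hD.mi I7 x0 r (K * r) card_I7.ge hr1 (hf.trans hR) hR).trans
    (mul_le_mul_right (add_le_add t1 t2) _)
  rw [← ENNReal.ofReal_add (by positivity) (by positivity), ← ENNReal.ofReal_mul hC.le] at t3
  have t4 := meas_le_of_lint (B := Sh u ∩ {x | ¬ Flat u (ε / r) x} ∩ {x | rh I7 x0 r x < 4 * r} ∩
    ball x0 (K * r)) (((hu.meas_Sh.inter (hu.meas_bad _)).inter
      (measurableSet_lt (measurable_rh _ _ _) measurable_const)).inter measurableSet_ball)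
    inter_subset_right (m := c * (F * r * (ε / r)) ^ (2 * s) * (4 * r) ^ (-(2 * γ) - 2))
    (by positivity) (fun x hx => by
      have h1 : C0 / (F * r) ≤ ε / r := by
        have := (div_le_iff₀ hε).1 ((le_max_right _ _).trans hF)
        rw [div_le_div_iff₀ (by positivity) hr0]; nlinarith
      have h2 := hD.low _ h1 hr4 x hx.1.1.1 hx.1.1.2
      have h3 : 0 < rh I7 x0 r x := hr0.trans_le (le_rh _ _ x)
      have h4 : (4 * r) ^ (-(2 * γ) - 2) ≤ rh I7 x0 r x ^ (-(2 * γ) - 2) :=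
        Real.rpow_le_rpow_of_nonpos h3 (le_of_lt hx.1.2) (by linarith)
      have h5 := hD.nJ x
      have h6 := hD.nG x
      exact le_add_of_le_of_nonneg (mul_le_mul h2 h4 (by positivity) h6) (by positivity)) t3
  refine t4.trans (ENNReal.ofReal_le_ofReal ?_)
  have e0 : F * r * (ε / r) = F * ε := by field_simp
  have e1 : r ^ (-(2 * γ) - 2) = r ^ (-(2 * γ)) / r ^ 2 := by
    rw [Real.rpow_sub hr0, Real.rpow_two]
  have e2 : F ^ (4 - 2 * γ - 2 * s) = F ^ 4 * F ^ (-(2 * γ)) / F ^ (2 * s) := by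
    rw [Real.rpow_sub hF0, sub_eq_add_neg, Real.rpow_add hF0,
      show (4 : ℝ) = ((4 : ℕ) : ℝ) by norm_num, Real.rpow_natCast]
  rw [e2] at hF2
  rw [e0, Real.mul_rpow hF0.le hε.le, Real.mul_rpow (by norm_num) hr0.le,
    Real.mul_rpow hF0.le hr0.le, e1]
  have hg : 0 < r ^ (-(2 * γ)) := by positivity
  have hg2 : 0 < F ^ (-(2 * γ)) := by positivity
  have hg3 : 0 < F ^ (2 * s) := by positivity
  generalize r ^ (-(2 * γ)) = g at hg
  calc _ = (m0⁻¹ * (F ^ (2 * s))⁻¹ * C * (cT7 (7 - P) * A' *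
        (F ^ 6 / K + (cIn (6 - P) (5 - P) + 1) * (F ^ 5 * F ^ (-(2 * γ))))) +
        D2 * (F ^ 4 * F ^ (-(2 * γ)) / F ^ (2 * s)) * K) * r ^ 7 := by
        rw [hD2, hm0]; field_simp
    _ ≤ (D1 + δ / 2 * K) * r ^ 7 := by
        rw [hD1]
        gcongr
        exact div_le_self (by positivity) (hF1.trans hK1)
    _ ≤ _ := by
        have : 0 < r ^ 7 := by positivity
        nlinarith

end

end Crest.Agent.N067
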