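import Crest.Agent.N067.K.Tub1
import Crest.Agent.N067.K.PsiMass
import Crest.Agent.N067.K.FlatN
import Crest.Agent.N067.X7.I
import Crest.Agent.N067.A.HK
import Crest.Agent.N067.E.Defs

/-!
# Row 67, block K (helper53): `MIStmt + AreaStmt ⇒ TubePtStmt ⇒ E.TubeStmt`
-/

set_option autoImplicit false

open MeasureTheory Topology Filter Set Metric InnerProductSpace
open scoped ENNReal RealInnerProductSpace Gradient

namespace Crest.Agent.N067

open Crest.Agent.R077

noncomputable section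

variable {n : ℕ}

theorem Sol.psi_ge_of_Sh {v : EE n → ℝ} (h : Sol v) {x : EE n} (hx : x ∈ Sh v) :
    1 / Real.cosh 1 ^ 2 ≤ psi v x := by
  rw [h.psi_eq_cosh]
  have h1 : Real.cosh (dd v x / Real.sqrt 2) ≤ Real.cosh 1 := by
    rw [Real.cosh_le_cosh, abs_one, abs_div, abs_of_pos sqrt2_pos, div_le_one sqrt2_pos]
    exact hx.trans (Real.one_le_sqrt.2 one_le_two)
  have h2 := Real.cosh_pos (dd v x / Real.sqrt 2)
  gcongr

theorem Sol.cont_en' {v : EE n → ℝ} (h : Sol v) : Continuous (en v) := by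
  have h1 := h.psi_sm.continuous
  have h2 := h.tt_sm.continuous
  rw [show en v = _ from funext h.en_eq]
  fun_prop

/-- energy bounds give volume bounds for the shallow set -/
theorem mass_of_en {v : EE n → ℝ} (h : Sol v) {Θ : ℝ} {k : ℕ}
    (hE : ∀ (x : EE n) (R : ℝ), 1 ≤ R → ∫ z in ball x R, en v z ≤ Θ * R ^ k) :
    ∃ Θ' : ℝ, 0 ≤ Θ' ∧ Mass v Θ' k := by
  have hc := Real.cosh_pos 1
  set m : ℝ := (1 / Real.cosh 1 ^ 2) ^ 2 / 4 with hm
  have hm0 : 0 < m := by positivity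
  have hen : ∀ x, 0 ≤ en v x := fun x => by unfold en; positivity
  refine ⟨m⁻¹ * max Θ 0, by positivity, fun x R hR => ?_⟩
  have hi : IntegrableOn (en v) (ball x R) :=
    (h.cont_en'.continuousOn.integrableOn_compact (isCompact_closedBall x R)).mono_set
      ball_subset_closedBall
  have h1 : ∫⁻ z in ball x R, ENNReal.ofReal (en v z) ≤ ENNReal.ofReal (max Θ 0 * R ^ k) := by
    rw [← ofReal_integral_eq_lintegral_ofReal hi (Eventually.of_forall hen)]
    refine ENNReal.ofReal_le_ofReal ((hE x R hR).trans ?_)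
    gcongr; exact le_max_left _ _
  refine (meas_le_of_lint (h.meas_Sh.inter measurableSet_ball) inter_subset_right hm0
    (fun z hz => ?_) h1).trans (le_of_eq ?_)
  · have h2 := h.psi_ge_of_Sh hz.1
    have h3 : (1 / Real.cosh 1 ^ 2) ^ 2 ≤ psi v z ^ 2 := by gcongr
    have h4 : 0 ≤ ‖∇ v z‖ ^ 2 / 2 := by positivity
    unfold en; unfold psi at h3; rw [hm]; linarith
  · rw [Real.rpow_natCast, mul_assoc]

theorem norm_ev7 : ‖(ev (Fin.last 7) : EE 8)‖ = 1 := by simp [ev]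

theorem tubePt (hMI : MIStmt) (hA : AreaStmt) : TubePtStmt := by
  intro u Θ hu hs hn hE ε hε
  obtain ⟨Θ', hΘ', hM⟩ := mass_of_en hu hE
  have hM' : Mass u Θ' 7 := by simpa using hM
  obtain ⟨c, r2, hc, hr2, hL⟩ := low u Θ' hu hΘ' hM'
  obtain ⟨κ0, hκ0, hN⟩ := flatN 8 u hu hs
  obtain ⟨K0, r1, hK0, hr1, hB⟩ := tubeBad hMI psiMass hA hu hs hn hΘ' hM' hε (δ := c / 8)
    (by positivity)
  obtain ⟨N, hN1⟩ := exists_nat_ge K0
  have hN0 : (1 : ℝ) ≤ N := hK0.trans hN1
  refine ⟨4 * N, max (max r1 r2) (ε / κ0), by linarith,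
    hr1.trans ((le_max_left _ _).trans (le_max_left _ _)), fun x0 r hr => ?_⟩
  have h1 : r1 ≤ r := ((le_max_left _ _).trans (le_max_left _ _)).trans hr
  have h2 : r2 ≤ r := ((le_max_right _ _).trans (le_max_left _ _)).trans hr
  have hr0 : 0 < r := one_pos.trans_le (hr1.trans h1)
  have h3 : ε / r ≤ κ0 := by
    have := (div_le_iff₀ hκ0).1 ((le_max_right _ _).trans hr)
    rw [div_le_iff₀ hr0]; linarith
  by_contra hcon
  push Not at hcon
  set z : ℕ → EE 8 := fun j => x0 + (4 * r * j) • ev (Fin.last 7) with hz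
  set S : ℕ → Set (EE 8) := fun j => Sh u ∩ ball (z j) (2 * r) with hS
  have hj : ∀ j ∈ Finset.range N, 4 * r * (j : ℝ) ∈ Icc (0 : ℝ) (4 * N * r) := fun j hj => by
    have : (j : ℝ) ≤ N := by exact_mod_cast (Finset.mem_range.1 hj).le
    exact ⟨by positivity, by nlinarith⟩
  have hlow : ∀ j ∈ Finset.range N, ENNReal.ofReal (c * r ^ 7) ≤ volume (S j) := fun j hj' => by
    obtain ⟨y, hy, hy0⟩ := (hcon _ (hj j hj')).1
    have := hL y r hy0 h2
    rw [show (7 : ℝ) = ((7 : ℕ) : ℝ) by norm_num, Real.rpow_natCast] at this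
    refine this.trans (measure_mono (inter_subset_inter_right _ ?_))
    exact ball_subset_ball' (by linarith [mem_ball.1 hy])
  have hsub : ⋃ j ∈ Finset.range N, S j ⊆ Sh u ∩ {x | ¬ Flat u (ε / r) x} ∩
      {x | rh I7 x0 r x < 4 * r} ∩ ball x0 (4 * N * r) := by
    refine iUnion₂_subset fun j hj' x hx => ⟨⟨⟨hx.1, fun hF => ?_⟩, ?_⟩, ?_⟩
    · exact absurd (hN x (hF.mono h3)) (not_le.2 ((hcon _ (hj j hj')).2 x hx.2 hx.1 hF))
    · have h4 : ‖x - z j‖ < 2 * r := by simpa [dist_eq_norm] using hx.2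
      have h5 := sum_sq_le I7 (z j) x
      rw [hz, sum_I7_shift] at h5
      refine (Real.sqrt_lt' (by positivity)).2 ?_
      nlinarith [norm_nonneg (x - z j)]
    · have h4 : dist (z j) x0 = 4 * r * j := by
        rw [hz, dist_eq_norm, add_sub_cancel_left, norm_smul, norm_ev7, mul_one,
          Real.norm_of_nonneg (by positivity)]
      have h5 : (j : ℝ) + 1 ≤ N := by exact_mod_cast Finset.mem_range.1 hj'
      exact ball_subset_ball' (by rw [h4]; nlinarith) hx.2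
  have hdis : Set.PairwiseDisjoint (↑(Finset.range N)) S := fun i _ j _ hij => by
    refine (ball_disjoint_ball ?_).mono inter_subset_right inter_subset_right
    have h4 : dist (z i) (z j) = 4 * r * |(i : ℝ) - j| := by
      rw [hz, dist_eq_norm, add_sub_add_left_eq_sub, ← sub_smul, norm_smul, norm_ev7, mul_one,
        ← mul_sub, Real.norm_eq_abs, abs_mul, abs_of_pos (by positivity)]
    have h5 : (1 : ℝ) ≤ |(i : ℝ) - j| := by
      have : (1 : ℤ) ≤ |(i : ℤ) - j| := Int.one_le_abs (sub_ne_zero.2 (by exact_mod_cast hij))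
      exact_mod_cast this
    rw [h4]; nlinarith
  have h6 := (measure_mono hsub).trans (hB (4 * N) r x0 (by linarith) h1)
  rw [measure_biUnion_finset hdis fun j _ => hu.meas_Sh.inter measurableSet_ball] at h6
  have h7 := (Finset.sum_le_sum hlow).trans h6
  rw [Finset.sum_const, Finset.card_range, nsmul_eq_mul, ← ENNReal.ofReal_natCast,
    ← ENNReal.ofReal_mul (Nat.cast_nonneg _), ENNReal.ofReal_le_ofReal_iff (by positivity)] at h7
  have h8 : 0 < (N : ℝ) * (c * r ^ 7) := by positivity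
  nlinarith

theorem div_neg_iff_of_pos_right {a b : ℝ} (hb : 0 < b) : a / b < 0 ↔ a < 0 := by
  rw [div_lt_iff₀ hb, zero_mul]

theorem Sol.pos_iff {v : EE n → ℝ} (h : Sol v) (x : EE n) : 0 < v x ↔ 0 < dd v x := by
  rw [h.eq_tanh x, Real.tanh_eq_sinh_div_cosh, div_pos_iff_of_pos_right (Real.cosh_pos _),
    Real.sinh_pos_iff, div_pos_iff_of_pos_right sqrt2_pos]

theorem Sol.neg_iff {v : EE n → ℝ} (h : Sol v) (x : EE n) : v x < 0 ↔ dd v x < 0 := by
  rw [h.eq_tanh x, Real.tanh_eq_sinh_div_cosh, div_neg_iff_of_pos_right (Real.cosh_pos _),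
    Real.sinh_neg_iff, div_neg_iff_of_pos_right sqrt2_pos]

/-- no zero in a ball: one sign -/
theorem sign_of_ne {v : EE n → ℝ} (hv : Continuous v) {z : EE n} {r : ℝ}
    (h : ∀ y ∈ ball z r, v y ≠ 0) : (∀ y ∈ ball z r, 0 < v y) ∨ ∀ y ∈ ball z r, v y < 0 := by
  by_contra hc
  push Not at hc
  obtain ⟨⟨a, ha, ha0⟩, b, hb, hb0⟩ := hc
  obtain ⟨y, hy, hy0⟩ := (convex_ball z r).isPreconnected.intermediate_value ha hb
    hv.continuousOn ⟨ha0, hb0⟩
  exact h y hy hy0

theorem tube_of_pt (hT : TubePtStmt) : E.TubeStmt := by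
  intro u Θ hu hs _ hE ε hε
  by_cases hn : Planar u
  · obtain ⟨a, ha, b, hb⟩ := hn
    refine ⟨0, 0, le_rfl, fun r hr => ⟨0, b, a, le_rfl, by simp, ha, fun x _ hx => ?_,
      fun x _ hx => ?_⟩⟩
    · have : 0 ≤ ε * r := by positivity
      rw [hb, zero_smul, add_zero, Real.tanh_eq_sinh_div_cosh,
        div_pos_iff_of_pos_right (Real.cosh_pos _), Real.sinh_pos_iff,
        div_pos_iff_of_pos_right sqrt2_pos]
      linarith
    · have : 0 ≤ ε * r := by positivity
      rw [hb, zero_smul, add_zero, Real.tanh_eq_sinh_div_cosh,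
        div_neg_iff_of_pos_right (Real.cosh_pos _), Real.sinh_neg_iff,
        div_neg_iff_of_pos_right sqrt2_pos]
      linarith
  obtain ⟨K, r1, hK, hr1, hT⟩ := hT u Θ hu hs hn hE (ε / 18) (by positivity)
  refine ⟨K, r1, by linarith, fun r hr => ?_⟩
  have hr0 : 0 < r := one_pos.trans_le (hr1.trans hr)
  have hεr : 0 ≤ ε * r := by positivity
  obtain ⟨h, ⟨h0, h1⟩, h2⟩ := hT 0 r hr
  rw [zero_add] at h2
  set z : EE 8 := h • ev (Fin.last 7) with hz
  have hm : ∀ x : EE 8, ‖x‖ < r → x + z ∈ ball z r := fun x hx => by simpa [dist_eq_norm] using hx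
  have hi : ∀ x : EE 8, ‖x‖ < r → |⟪(ev (Fin.last 7) : EE 8), x⟫| < r := fun x hx =>
    (abs_real_inner_le_norm _ _).trans_lt (by rwa [norm_ev7, one_mul])
  rcases h2 with h2 | ⟨p, hp, -, hF, hN⟩
  · rcases sign_of_ne hu.sm.continuous h2 with h3 | h3
    · exact ⟨h, -r, ev (Fin.last 7), h0, h1, norm_ev7, fun x hx _ => h3 _ (hm x hx),
        fun x hx h4 => absurd (abs_lt.1 (hi x hx)).1 (by linarith)⟩
    · exact ⟨h, r, ev (Fin.last 7), h0, h1, norm_ev7,
        fun x hx h4 => absurd (abs_lt.1 (hi x hx)).2 (by linarith), fun x hx _ => h3 _ (hm x hx)⟩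
  · set g := ∇ (dd u) p with hg
    have hN0 : 0 < ‖g‖ := by linarith
    have hp' : ‖z - p‖ < 2 * r := by rw [norm_sub_rev]; simpa [dist_eq_norm] using hp
    have key : ∀ x : EE 8, ‖x‖ < r → |dd u (x + z) - ‖g‖ * (⟪‖g‖⁻¹ • g, x⟫ -
        -(dd u p + ⟪g, z - p⟫) / ‖g‖)| ≤ ε * r / 2 := fun x hx => by
      have h3 := hF (x + z)
      have h4 : ‖x + z - p‖ ≤ 3 * r := by
        rw [add_sub_assoc]; linarith [norm_add_le x (z - p)]
      have h5 : ε / 18 / r * ‖x + z - p‖ ^ 2 ≤ ε / 18 / r * (3 * r) ^ 2 := by gcongr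
      have h6 : ε / 18 / r * (3 * r) ^ 2 = ε * r / 2 := by field_simp; ring
      have h7 : ‖g‖ * (⟪‖g‖⁻¹ • g, x⟫ - -(dd u p + ⟪g, z - p⟫) / ‖g‖) =
          dd u p + ⟪g, x + z - p⟫ := by
        rw [real_inner_smul_left, add_sub_assoc, inner_add_right]; field_simp; ring
      rw [h7, ← sub_sub]; linarith
    refine ⟨h, -(dd u p + ⟪g, z - p⟫) / ‖g‖, ‖g‖⁻¹ • g, h0, h1,
      by rw [norm_smul, norm_inv, norm_norm, inv_mul_cancel₀ hN0.ne'], fun x hx h3 => ?_,
      fun x hx h3 => ?_⟩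
    · rw [hu.pos_iff]
      have := (abs_le.1 (key x hx)).1
      nlinarith
    · rw [hu.neg_iff]
      have := (abs_le.1 (key x hx)).2
      nlinarith

/-- TUBE from the master inequality -/
theorem tube (hMI : MIStmt) (hA : AreaStmt) : E.TubeStmt := tube_of_pt (tubePt hMI hA)

end

end Crest.Agent.N067
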